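import Vale.Agent.P151G.MissB

/-! Job Balance: choice of the width of the parallelogram; continuity. -/

namespace Vale.Agent.P151G

open Finset Vale.Agent.P151

variable {V : Type*} [DecidableEq V] {G : SimpleGraph V} [G.LocallyFinite]

namespace Balance

lemma seed_mono {o : V} {X Y : V → ℤ} {R h a0 m a : ℕ}
    (hseed : ball G o m ⊆ par G o X Y R a0 h) (ha : a0 ≤ a) :
    ball G o m ⊆ par G o X Y R a h := by
  intro v hv
  obtain ⟨h1, h2, h3⟩ := mem_par.1 (hseed hv)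
  exact mem_par.2 ⟨h1, h2.trans (by exact_mod_cast ha), h3⟩

lemma large (p : ℝ) (o : V) (X Y : V → ℤ) (kX R h a0 m : ℕ)
    (hseed : ball G o m ⊆ par G o X Y R a0 h) :
    ∃ n : ℕ, miss G p (par G o X Y R (a0 + n + 1) h) (ball G o m)
      {v | ((a0 + n + 1 : ℕ) : ℤ) < |X v| + kX} = 1 := by
  refine ⟨(ball G o R).sup (fun v => (X v).natAbs) + kX, ?_⟩
  refine miss_empty p (seed_mono hseed (by omega)) ?_
  intro b hb hb'
  have h1 := (mem_par.1 hb').1
  have h2 : (X b).natAbs ≤ (ball G o R).sup (fun v => (X v).natAbs) :=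
    le_sup (f := fun v => (X v).natAbs) h1
  have h3 : ((a0 + ((ball G o R).sup (fun v => (X v).natAbs) + kX) + 1 : ℕ) : ℤ) <
      |X b| + kX := hb
  rw [Int.abs_eq_natAbs] at h3
  omega

lemma side {p : ℝ} (h0 : 0 ≤ p) (h1 : p ≤ 1) (o : V) (X Y : V → ℤ) (kX R h a m : ℕ)
    (hX : ∀ u v, G.Adj u v → |X u - X v| ≤ kX) (hseed : ball G o m ⊆ par G o X Y R a h)
    {c : ℝ} (hc0 : 0 < c) (T : Set V)
    (hT : miss G p (par G o (fun _ => 0) Y R 0 h) (ball G o m) T ≤ c ^ 2)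
    (hS : c < miss G p (par G o X Y R a h) (ball G o m) {v | (a : ℤ) < |X v| + kX}) :
    miss G p (par G o X Y R a h) (ball G o m) T ≤ c := by
  have h2 : miss G p (par G o X Y R a h) (ball G o m) (T ∪ {v | (a : ℤ) < |X v| + kX}) ≤
      miss G p (par G o (fun _ => 0) Y R 0 h) (ball G o m) T := by
    refine miss_exit h0 h1 ?_ hseed (fun b hb _ => Or.inl hb) ?_
    · intro v hv
      obtain ⟨h3, -, h4⟩ := mem_par.1 hv
      exact mem_par.2 ⟨h3, by simp, h4⟩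
    · intro x _ y hy hy' hxy
      obtain ⟨h3, -, h4⟩ := mem_par.1 hy
      have h5 : (a : ℤ) < |X y| := by
        by_contra h6
        exact hy' (mem_par.2 ⟨h3, not_lt.1 h6, h4⟩)
      have h6 := hX x y hxy
      have h7 : |X y| ≤ |X x| + |X x - X y| := by
        have := abs_sub (X x) (X x - X y)
        rwa [sub_sub_cancel] at this
      right
      change (a : ℤ) < |X x| + kX
      linarith
  have h3 := miss_mul h0 h1 (G := G) (par G o X Y R a h) (ball G o m) T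
    {v | (a : ℤ) < |X v| + kX}
  have h4 := miss_nonneg h0 h1 (G := G) (par G o X Y R a h) (ball G o m) T
  by_contra h5
  push Not at h5
  nlinarith

end Balance

theorem balance {p : ℝ} (h0 : 0 ≤ p) (h1 : p ≤ 1) (o : V) (X Y : V → ℤ) (kX R h a0 m : ℕ)
    (hX : ∀ u v, G.Adj u v → |X u - X v| ≤ kX) (hseed : ball G o m ⊆ par G o X Y R a0 h)
    {c : ℝ} (hc0 : 0 < c) (hc1 : c < 1) (T T' : Set V)
    (hT : miss G p (par G o (fun _ => 0) Y R 0 h) (ball G o m) T ≤ c ^ 2)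
    (hT' : miss G p (par G o (fun _ => 0) Y R 0 h) (ball G o m) T' ≤ c ^ 2)
    (hS : miss G p (par G o X Y R a0 h) (ball G o m) {v | a0 < |X v| + kX} ≤ c) :
    ∃ a : ℕ, a0 ≤ a ∧ miss G p (par G o X Y R a h) (ball G o m) {v | a < |X v| + kX} ≤ c ∧
      miss G p (par G o X Y R (a + 1) h) (ball G o m) T ≤ c ∧
      miss G p (par G o X Y R (a + 1) h) (ball G o m) T' ≤ c := by
  classical
  have hex : ∃ n : ℕ, c < miss G p (par G o X Y R (a0 + n + 1) h) (ball G o m)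
      {v | ((a0 + n + 1 : ℕ) : ℤ) < |X v| + kX} := by
    obtain ⟨n, hn⟩ := Balance.large (G := G) p o X Y kX R h a0 m hseed
    exact ⟨n, hn ▸ hc1⟩
  have hspec := Nat.find_spec hex
  have hs := Balance.seed_mono hseed (a := a0 + Nat.find hex + 1) (by omega)
  refine ⟨a0 + Nat.find hex, Nat.le_add_right _ _, ?_,
    Balance.side h0 h1 o X Y kX R h _ m hX hs hc0 T hT hspec,
    Balance.side h0 h1 o X Y kX R h _ m hX hs hc0 T' hT' hspec⟩
  rcases Nat.eq_zero_or_pos (Nat.find hex) with hz | hz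
  · rw [hz]; exact hS
  · obtain ⟨k, hk⟩ : ∃ k, Nat.find hex = k + 1 := ⟨Nat.find hex - 1, by omega⟩
    have hmin := Nat.find_min hex (m := k) (by omega)
    rw [hk]
    exact not_lt.1 hmin

theorem ifr_cont {o : V} {p δ : ℝ} {m ρ W : ℕ} (hp : 0 < p) (hδ : 0 < δ)
    (h : IFr G o p δ m ρ W) : ∃ p', p / 2 ≤ p' ∧ p' < p ∧ IFr G o p' (2 * δ) m ρ W := by
  obtain ⟨X, Y, a, h, kX, kY, R, t, e1, e2, e3, e4, e5, e6, e7, e8, e9, e10, hm⟩ := h
  have key : ∀ (D A : Finset V) (T : Set V), miss G p D A T ≤ δ →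
      ∀ᶠ q in nhdsWithin p (Set.Iio p), miss G q D A T ≤ 2 * δ := by
    intro D A T hT
    have hc := (continuous_miss (G := G) D A T).continuousAt (x := p)
    have : ∀ᶠ q in nhds p, miss G q D A T < 2 * δ :=
      hc.eventually (gt_mem_nhds (by linarith))
    exact (this.filter_mono nhdsWithin_le_nhds).mono fun q hq => hq.le
  have k0 : ∀ᶠ q in nhdsWithin p (Set.Iio p), p / 2 ≤ q :=
    ((lt_mem_nhds (show p / 2 < p by linarith)).filter_mono nhdsWithin_le_nhds).mono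
      fun q hq => hq.le
  have k1 : ∀ᶠ q in nhdsWithin p (Set.Iio p), q < p := self_mem_nhdsWithin
  obtain ⟨q, ⟨⟨q0, q1⟩, ⟨a1, a2⟩, ⟨a3, a4⟩⟩⟩ := ((k0.and k1).and
    (((key _ _ _ (hm 1 (Or.inl rfl)).1).and (key _ _ _ (hm 1 (Or.inl rfl)).2)).and
    ((key _ _ _ (hm (-1) (Or.inr rfl)).1).and (key _ _ _ (hm (-1) (Or.inr rfl)).2)))).exists
  refine ⟨q, q0, q1, X, Y, a, h, kX, kY, R, t, e1, e2, e3, e4, e5, e6, e7, e8, e9, e10, ?_⟩
  rintro s (rfl | rfl)
  · exact ⟨a1, a2⟩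
  · exact ⟨a3, a4⟩

end Vale.Agent.P151G
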