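import Vale.Agent.P151.Basic
import Vale.Agent.P151.Defs

/-! Balls, edge sets, connection probabilities and the intermediate structures on a general
locally finite graph. -/

namespace Vale.Agent.P151G

open Finset Vale.Agent.P151

noncomputable section

variable {V : Type*} [DecidableEq V] (G : SimpleGraph V) [G.LocallyFinite]

/-- the ball of radius `n` for the graph distance -/
def ball (v : V) : ℕ → Finset V
  | 0 => {v}
  | n + 1 => ball v n ∪ (ball v n).biUnion fun y => G.neighborFinset y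

open Classical in
/-- edges of `G` with both endpoints in `D` -/
def eIn (D : Finset V) : Finset (Sym2 V) := D.sym2.filter fun e => e ∈ G.edgeSet

open Classical in
/-- the inner vertex boundary of a ball -/
def sph (v : V) (n : ℕ) : Finset V := (ball G v n).filter fun x => ∃ y, y ∉ ball G v n ∧ G.Adj x y

/-- the neighbourhood of radius `j` -/
def thick (B : Finset V) (j : ℕ) : Finset V := B.biUnion fun b => ball G b j

/-- the probability that `A` is not joined to `T` inside `D` -/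
def miss (p : ℝ) (D A : Finset V) (T : Set V) : ℝ :=
  Pr (eIn G D) (fun _ => p) fun ω => ¬ ∃ a ∈ A, ∃ b ∈ T, Conn ω a b

/-- one-arm probability -/
def theta (p : ℝ) (o : V) (n : ℕ) : ℝ :=
  Pr (eIn G (ball G o n)) (fun _ => p) fun ω => ∃ b ∈ sph G o n, Conn ω o b

/-- finite-volume form of `θ_o(p) > 0` -/
def Perc (p : ℝ) (o : V) : Prop := ∃ c > 0, ∀ n, c ≤ theta G p o n

/-- the conclusion of the target lemma -/
def TargetProp (p γ δ : ℝ) (m J : ℕ) : Prop :=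
  ∀ (U : Finset (Sym2 V)) (w : Sym2 V → ℝ) (B : Finset V) (T : Set V) (o : V), Valid w →
    (∀ e ∈ U, e ∈ G.edgeSet) → (∀ e ∈ eIn G (thick G B (J + 1)), e ∈ U ∧ w e = p) →
    o ∉ thick G B J →
    (∀ v ∈ thick G B J, Pr U w (fun ω => ¬ ∃ a ∈ ball G v m, ∃ b ∈ T, Conn ω a b) ≤ δ) →
    Pr U w (fun ω => (∃ b ∈ B, Conn ω o b) ∧ ¬ ∃ b ∈ T, Conn ω o b) ≤ γ

/-- equivariant coordinates in `ℤ²` -/
structure Geo (o : V) where
  P : V → ℤ
  Q : V → ℤ
  κ : ℕ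
  ρ : ℕ
  Δ : ℕ
  hκ : 1 ≤ κ
  P0 : P o = 0
  Q0 : Q o = 0
  deg : ∀ v, G.degree v ≤ Δ
  lip : ∀ u v, G.Adj u v → |P u - P v| ≤ κ ∧ |Q u - Q v| ≤ κ
  net : ∀ u, ∃ γ : G ≃g G, u ∈ ball G (γ o) ρ ∧
    ∀ x, P (γ x) = P (γ o) + P x ∧ Q (γ x) = Q (γ o) + Q x
  step : ∀ u, ∀ s t : ℤ, |s| ≤ 1 → |t| ≤ 1 → ∃ v ∈ ball G u ρ, P v = P u + s ∧ Q v = Q u + t

open Classical in
/-- the part of a ball inside a parallelogram -/
def par (o : V) (X Y : V → ℤ) (R a h : ℕ) : Finset V :=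
  (ball G o R).filter fun v => |X v| ≤ a ∧ |Y v| ≤ h

/-- the four moves from the seed at `o`, in integer coordinates -/
def IFr (o : V) (p δ : ℝ) (m ρ W : ℕ) : Prop :=
  ∃ (X Y : V → ℤ) (a h kX kY R : ℕ) (t : ℤ), X o = 0 ∧ Y o = 0 ∧ 1 ≤ kX ∧ 1 ≤ kY ∧ W * kX ≤ a ∧
    W * kY ≤ h ∧ |t| ≤ h ∧ m ≤ R ∧ (∀ u v, G.Adj u v → |X u - X v| ≤ kX ∧ |Y u - Y v| ≤ kY) ∧
    (∀ u, ∃ γ : G ≃g G, u ∈ ball G (γ o) ρ ∧
      ∀ x, X (γ x) = X (γ o) + X x ∧ Y (γ x) = Y (γ o) + Y x) ∧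
    ∀ s : ℤ, s = 1 ∨ s = -1 →
      miss G p (par G o X Y R (a + 1) h) (ball G o m) {v | h < Y v + kY ∧ -(kX : ℤ) ≤ s * X v} ≤ δ ∧
      miss G p (par G o X Y R (a + 1) h) (ball G o m) {v | a < X v + kX ∧ 0 ≤ s * (Y v - t)} ≤ δ

open Classical in
/-- the region of one move -/
def reg (f g : V → ℝ) (u : V) (R : ℕ) : Finset V :=
  (ball G u R).filter fun v => |f v - f u| ≤ 3 ∧ |g v - g u| ≤ 3

/-- from every seed one can advance by about one in `f`, with a chosen sign of the change of `g` -/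
def Mv (p δ ε : ℝ) (M R : ℕ) (f g : V → ℝ) : Prop :=
  ∀ u, ∀ s : ℝ, s = 1 ∨ s = -1 → miss G p (reg G f g u R) (ball G u M)
    {v | 1 - ε ≤ f v - f u ∧ f v - f u ≤ 1 + ε ∧ -ε ≤ s * (g v - g u) ∧ s * (g v - g u) ≤ 2 + ε} ≤ δ

/-- `f` changes by at most `l` along edges -/
def Lip (f : V → ℝ) (l : ℝ) : Prop := ∀ u v, G.Adj u v → |f u - f v| ≤ l

/-- real coordinates with moves in two directions -/
def Frame (o : V) (p δ ε : ℝ) (M : ℕ) : Prop :=
  ∃ (ξ ζ : V → ℝ) (τ : ℝ) (R : ℕ), |τ| ≤ 1 ∧ ξ o = 0 ∧ ζ o = 0 ∧ M ≤ R ∧ Lip G ξ ε ∧ Lip G ζ ε ∧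
    Mv G p δ ε M R ξ (fun v => ζ v - τ * ξ v) ∧ Mv G p δ ε M R ζ ξ

open Classical in
/-- a box in the coordinates `f`, `g` -/
def bx (o : V) (f g : V → ℝ) (lo hi c r : ℝ) (R : ℕ) : Finset V :=
  (ball G o R).filter fun v => lo ≤ f v ∧ f v ≤ hi ∧ |g v - c| ≤ r

/-- abstract data of the coarse-graining -/
structure Macro (o : V) (p η g : ℝ) where
  seed : Finset (Sym2 V)
  E : ℕ × ℕ → Finset (Sym2 V)
  M : ℕ × ℕ → Finset V
  seed_edge : ∀ e ∈ seed, e ∈ G.edgeSet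
  E_edge : ∀ y, ∀ e ∈ E y, e ∈ G.edgeSet
  disj : Pairwise fun y z => Disjoint (E y) (E z)
  E_seed : ∀ y, ∀ e ∈ E y, e ∉ seed
  child : ∀ y z : ℕ × ℕ, y.2 ≤ y.1 → (z = (y.1 + 1, y.2) ∨ z = (y.1 + 1, y.2 + 1)) →
    ∀ (U : Finset (Sym2 V)) (w : Sym2 V → ℝ), Valid w → (∀ e ∈ U, e ∈ G.edgeSet) →
    (∀ e ∈ seed, e ∈ U ∧ w e = 1) → (∀ e, e ∈ E y ∨ e ∈ E z → e ∈ U ∧ w e = p) →
    Pr U w (fun ω => (∃ b ∈ M y, Conn ω o b) ∧ ¬ ∃ b ∈ M z, Conn ω o b) ≤ g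
  root : ∀ (U : Finset (Sym2 V)) (w : Sym2 V → ℝ), Valid w → (∀ e ∈ U, e ∈ G.edgeSet) →
    (∀ e ∈ seed, e ∈ U ∧ w e = 1) → (∀ e ∈ E (0, 0), e ∈ U ∧ w e = p) →
    Pr U w (fun ω => ¬ ∃ b ∈ M (0, 0), Conn ω o b) ≤ η
  farM : ∀ T x, x ≤ T → ∀ b ∈ M (T + 1, x), b ∉ ball G o T
  farE : ∀ T x, x ≤ T → ∀ e ∈ E (T + 1, x), ∀ b ∈ e, b ∉ ball G o T

variable {G}

lemma mem_ball_zero {v x : V} : x ∈ ball G v 0 ↔ x = v := by simp [ball]

lemma mem_ball_succ {v x : V} {n : ℕ} :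
    x ∈ ball G v (n + 1) ↔ x ∈ ball G v n ∨ ∃ y ∈ ball G v n, G.Adj y x := by
  simp [ball]

lemma ball_mono (v : V) {n k : ℕ} (h : n ≤ k) : ball G v n ⊆ ball G v k := by
  induction h with
  | refl => exact Subset.rfl
  | step _ ih => exact fun x hx => mem_ball_succ.2 (Or.inl (ih hx))

lemma mem_ball_self (v : V) (n : ℕ) : v ∈ ball G v n :=
  ball_mono v (Nat.zero_le n) (mem_ball_zero.2 rfl)

lemma ball_adj {v x y : V} {n : ℕ} (h : x ∈ ball G v n) (hxy : G.Adj x y) :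
    y ∈ ball G v (n + 1) := mem_ball_succ.2 (Or.inr ⟨x, h, hxy⟩)

lemma ball_trans {v x y : V} {n k : ℕ} (h : x ∈ ball G v n) (h' : y ∈ ball G x k) :
    y ∈ ball G v (n + k) := by
  induction k generalizing y with
  | zero => rw [mem_ball_zero.1 h']; exact h
  | succ k ih =>
    rcases mem_ball_succ.1 h' with h1 | ⟨z, hz, hzy⟩
    · exact ball_mono v (Nat.le_succ _) (ih h1)
    · exact ball_adj (ih hz) hzy

lemma ball_symm {v x : V} {n : ℕ} (h : x ∈ ball G v n) : v ∈ ball G x n := by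
  induction n generalizing x with
  | zero => rw [mem_ball_zero.1 h]; exact mem_ball_self _ _
  | succ n ih =>
    rcases mem_ball_succ.1 h with h1 | ⟨z, hz, hzx⟩
    · exact ball_mono x (Nat.le_succ _) (ih h1)
    · have := ball_trans (ball_adj (mem_ball_self x 0) hzx.symm) (ih hz)
      rwa [zero_add, add_comm] at this

lemma ball_split {v x : V} {n k : ℕ} (h : x ∈ ball G v (n + k)) :
    ∃ u ∈ ball G v n, x ∈ ball G u k := by
  induction k generalizing x with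
  | zero => exact ⟨x, h, mem_ball_self _ _⟩
  | succ k ih =>
    rcases mem_ball_succ.1 h with h1 | ⟨z, hz, hzx⟩
    · obtain ⟨u, hu, hx⟩ := ih h1
      exact ⟨u, hu, ball_mono u (Nat.le_succ _) hx⟩
    · obtain ⟨u, hu, hx⟩ := ih hz
      exact ⟨u, hu, ball_adj hx hzx⟩

lemma ball_subset_ball {v u : V} {n k R : ℕ} (h : u ∈ ball G v n) (hR : n + k ≤ R) :
    ball G u k ⊆ ball G v R := fun _ hx => ball_mono v hR (ball_trans h hx)

lemma card_ball {Δ : ℕ} (hΔ : ∀ v, G.degree v ≤ Δ) (v : V) (n : ℕ) :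
    (ball G v n).card ≤ (Δ + 1) ^ n := by
  induction n with
  | zero => simp [ball]
  | succ n ih =>
    have h1 : ((ball G v n).biUnion fun y => G.neighborFinset y).card ≤ (ball G v n).card * Δ :=
      card_biUnion_le_card_mul _ _ _ fun y _ => by
        rw [SimpleGraph.card_neighborFinset_eq_degree]; exact hΔ y
    calc (ball G v (n + 1)).card ≤ (ball G v n).card + (ball G v n).card * Δ :=
          (card_union_le _ _).trans (Nat.add_le_add_left h1 _)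
      _ = (ball G v n).card * (Δ + 1) := by ring
      _ ≤ (Δ + 1) ^ n * (Δ + 1) := Nat.mul_le_mul_right _ ih
      _ = _ := by ring

lemma Lip.ball {f : V → ℝ} {l : ℝ} (hf : Lip G f l) (hl : 0 ≤ l) {v x : V} {n : ℕ}
    (h : x ∈ ball G v n) : |f x - f v| ≤ n * l := by
  induction n generalizing x with
  | zero => rw [mem_ball_zero.1 h]; simp
  | succ n ih =>
    push_cast
    rcases mem_ball_succ.1 h with h1 | ⟨z, hz, hzx⟩
    · linarith [ih h1]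
    · have h2 := abs_le.1 (ih hz)
      have h3 := abs_le.1 (hf z x hzx)
      rw [abs_le]; constructor <;> linarith

lemma lip_ball_int {f : V → ℤ} {k : ℕ} (hf : ∀ u v, G.Adj u v → |f u - f v| ≤ k) {v x : V} {n : ℕ}
    (h : x ∈ ball G v n) : |f x - f v| ≤ n * k := by
  induction n generalizing x with
  | zero => rw [mem_ball_zero.1 h]; simp
  | succ n ih =>
    push_cast
    rcases mem_ball_succ.1 h with h1 | ⟨z, hz, hzx⟩
    · have : (0 : ℤ) ≤ k := by positivity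
      linarith [ih h1]
    · have h2 := abs_le.1 (ih hz)
      have h3 := abs_le.1 (hf z x hzx)
      rw [abs_le]; constructor <;> linarith

lemma ball_aut (γ : G ≃g G) {v x : V} {n : ℕ} (h : x ∈ ball G v n) : γ x ∈ ball G (γ v) n := by
  induction n generalizing x with
  | zero => rw [mem_ball_zero.1 h]; exact mem_ball_self _ _
  | succ n ih =>
    rcases mem_ball_succ.1 h with h1 | ⟨z, hz, hzx⟩
    · exact ball_mono _ (Nat.le_succ _) (ih h1)
    · exact ball_adj (ih hz) (γ.map_rel_iff.2 hzx)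

lemma ball_aut_iff (γ : G ≃g G) {v x : V} {n : ℕ} : γ x ∈ ball G (γ v) n ↔ x ∈ ball G v n :=
  ⟨fun h => by simpa using ball_aut γ.symm h, ball_aut γ⟩

lemma exists_mem_ball (hc : G.Connected) (v x : V) : ∃ n, x ∈ ball G v n := by
  have h := hc.preconnected v x
  rw [SimpleGraph.reachable_iff_reflTransGen] at h
  induction h with
  | refl => exact ⟨0, mem_ball_self _ _⟩
  | tail _ hbc ih => obtain ⟨n, hn⟩ := ih; exact ⟨n + 1, ball_adj hn hbc⟩

omit [DecidableEq V] [G.LocallyFinite] in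
lemma mk_mem_eIn {D : Finset V} {x y : V} : s(x, y) ∈ eIn G D ↔ x ∈ D ∧ y ∈ D ∧ G.Adj x y := by
  simp [eIn, and_assoc]

omit [DecidableEq V] [G.LocallyFinite] in
lemma mem_eIn {D : Finset V} {e : Sym2 V} : e ∈ eIn G D ↔ (∀ x ∈ e, x ∈ D) ∧ e ∈ G.edgeSet := by
  simp [eIn]

omit [G.LocallyFinite] in
lemma eIn_mono {D D' : Finset V} (h : D ⊆ D') : eIn G D ⊆ eIn G D' := by
  intro e he
  rw [mem_eIn] at he ⊢
  exact ⟨fun x hx => h (he.1 x hx), he.2⟩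

omit [G.LocallyFinite] in
lemma eIn_edge {D : Finset V} {e : Sym2 V} (h : e ∈ eIn G D) : e ∈ G.edgeSet := (mem_eIn.1 h).2

omit [G.LocallyFinite] in
lemma card_eIn_le (D : Finset V) : (eIn G D).card ≤ D.card ^ 2 := by
  classical
  refine (card_filter_le _ _).trans ?_
  rw [sym2_eq_image, sq, ← card_product]
  exact card_image_le

lemma mem_sph {v x : V} {n : ℕ} :
    x ∈ sph G v n ↔ x ∈ ball G v n ∧ ∃ y, y ∉ ball G v n ∧ G.Adj x y := by simp [sph]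

lemma notMem_ball_of_sph {v x : V} {n k : ℕ} (h : x ∈ sph G v n) (hk : k < n) :
    x ∉ ball G v k := fun hx => by
  obtain ⟨-, y, hy, hxy⟩ := mem_sph.1 h
  exact hy (ball_mono v hk (ball_adj hx hxy))

lemma mem_thick {B : Finset V} {j : ℕ} {x : V} : x ∈ thick G B j ↔ ∃ b ∈ B, x ∈ ball G b j := by
  simp [thick]

lemma thick_mono (B : Finset V) {j j' : ℕ} (h : j ≤ j') : thick G B j ⊆ thick G B j' := by
  intro x hx
  obtain ⟨b, hb, h1⟩ := mem_thick.1 hx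
  exact mem_thick.2 ⟨b, hb, ball_mono b h h1⟩

lemma subset_thick (B : Finset V) (j : ℕ) : B ⊆ thick G B j := fun x hx =>
  mem_thick.2 ⟨x, hx, mem_ball_self _ _⟩

lemma mem_par {o v : V} {X Y : V → ℤ} {R a h : ℕ} :
    v ∈ par G o X Y R a h ↔ v ∈ ball G o R ∧ |X v| ≤ a ∧ |Y v| ≤ h := by simp [par]

lemma mem_reg {f g : V → ℝ} {u v : V} {R : ℕ} :
    v ∈ reg G f g u R ↔ v ∈ ball G u R ∧ |f v - f u| ≤ 3 ∧ |g v - g u| ≤ 3 := by simp [reg]

lemma mem_bx {o v : V} {f g : V → ℝ} {lo hi c r : ℝ} {R : ℕ} :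
    v ∈ bx G o f g lo hi c r R ↔ v ∈ ball G o R ∧ lo ≤ f v ∧ f v ≤ hi ∧ |g v - c| ≤ r := by
  simp [bx]

lemma conn_ball {ω : Finset (Sym2 V)} {v a : V} {m : ℕ} (h : eIn G (ball G v m) ⊆ ω)
    (ha : a ∈ ball G v m) : Conn ω v a := by
  induction m generalizing a with
  | zero => rw [mem_ball_zero.1 ha]; exact Conn.refl _ _
  | succ m ih =>
    have ih' := fun x => @ih x ((eIn_mono (ball_mono v (Nat.le_succ m))).trans h)
    rcases mem_ball_succ.1 ha with h1 | ⟨z, hz, hza⟩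
    · exact ih' _ h1
    · exact (ih' _ hz).trans (Conn.of_mem (h (mk_mem_eIn.2
        ⟨ball_mono v (Nat.le_succ m) hz, ha, hza⟩)))

omit [G.LocallyFinite] in
/-- leaving a finite set `D` through its inner boundary -/
lemma exit_set {ω : Finset (Sym2 V)} (hω : ∀ e ∈ ω, e ∈ G.edgeSet) {D : Finset V} {a b : V}
    (ha : a ∈ D) (hc : Conn ω a b) : (b ∈ D ∧ Conn (ω ∩ eIn G D) a b) ∨
      ∃ x y, x ∈ D ∧ y ∉ D ∧ s(x, y) ∈ ω ∧ G.Adj x y ∧ Conn (ω ∩ eIn G D) a x := by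
  rcases Conn.exit (ω' := ω ∩ eIn G D) (D := (D : Set V))
    (fun x y hx hy hxy => mem_inter.2 ⟨hxy, mk_mem_eIn.2 ⟨hx, hy, hω _ hxy⟩⟩) ha hc with
    h | ⟨x, y, hx, hy, hxy, h⟩
  · exact Or.inl h
  · exact Or.inr ⟨x, y, hx, hy, hxy, hω _ hxy, h⟩

lemma exit_ball {ω : Finset (Sym2 V)} (hω : ∀ e ∈ ω, e ∈ G.edgeSet) {v a b : V} {n : ℕ}
    (ha : a ∈ ball G v n) (hb : b ∉ ball G v n) (hc : Conn ω a b) :
    ∃ x ∈ sph G v n, Conn (ω ∩ eIn G (ball G v n)) a x := by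
  rcases exit_set hω ha hc with h | ⟨x, y, hx, hy, -, hxy, h⟩
  · exact absurd h.1 hb
  · exact ⟨x, mem_sph.2 ⟨hx, y, hy, hxy⟩, h⟩

lemma Pr_far_le_theta {p : ℝ} (h0 : 0 ≤ p) (h1 : p ≤ 1) (U : Finset (Sym2 V))
    (hU : ∀ e ∈ U, e ∈ G.edgeSet) (o : V) (n : ℕ) :
    Pr U (fun _ => p) (fun ω => ∃ b, b ∉ ball G o n ∧ Conn ω o b) ≤ theta G p o n := by
  have hv : Valid (fun _ : Sym2 V => p) := valid_const h0 h1
  set E := eIn G (ball G o n) with hE
  have e1 : Pr U (fun _ => p) (fun ω => ∃ b, b ∉ ball G o n ∧ Conn ω o b) =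
      Pr (U ∪ E) (fun _ => p) (fun ω => ∃ b, b ∉ ball G o n ∧ Conn (ω ∩ U) o b) :=
    (Ex_universe subset_union_left _).symm
  have e2 : theta G p o n = Pr (U ∪ E) (fun _ => p)
      (fun ω => ∃ b ∈ sph G o n, Conn (ω ∩ E) o b) :=
    (Ex_universe subset_union_right _).symm
  rw [e1, e2]
  refine Pr_mono hv ?_
  rintro ω - ⟨b, hb, hc⟩
  obtain ⟨x, hx, h⟩ := exit_ball (fun e he => hU e (mem_inter.1 he).2) (mem_ball_self o n) hb hc
  exact ⟨x, hx, h.mono (inter_subset_inter inter_subset_left Subset.rfl)⟩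

end

end Vale.Agent.P151G
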