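import Vale.Agent.P151G.Base
import Vale.Agent.P151.Bridge

/-! Job Bridge: finite volume versus the product measure. -/

namespace Vale.Agent.P151G

open Finset Vale.Agent.P151

variable {V : Type*} [DecidableEq V] {G : SimpleGraph V} [G.LocallyFinite]

open unitInterval MeasureTheory ProbabilityTheory

namespace Bridge

lemma countable (hc : G.Connected) : Countable V := by
  obtain ⟨o⟩ := hc.nonempty
  rw [← Set.countable_univ_iff]
  refine (Set.countable_iUnion fun n : ℕ => (ball G o n).countable_toSet).mono fun x _ => ?_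
  obtain ⟨n, hn⟩ := exists_mem_ball hc o x
  exact Set.mem_iUnion.2 ⟨n, hn⟩

end Bridge

theorem perc_of_measure_pos (hc : G.Connected) (p : I)
    (h : 0 < percMeasure G p (infEvent V)) : ∃ o, Perc G p o := by
  classical
  haveI := Bridge.countable hc
  have hun : infEvent V = ⋃ x : V, {ω | (cluster ω x).Infinite} := by
    ext ω; simp [infEvent]
  rw [hun] at h
  obtain ⟨x, hx⟩ : ∃ x : V, percMeasure G p {ω | (cluster ω x).Infinite} ≠ 0 := by
    by_contra hc
    push Not at hc
    exact h.ne' (measure_iUnion_null hc)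
  have hfin : percMeasure G p {ω | (cluster ω x).Infinite} ≠ ⊤ := by
    unfold percMeasure; exact measure_ne_top _ _
  refine ⟨x, (percMeasure G p {ω | (cluster ω x).Infinite}).toReal,
    ENNReal.toReal_pos hx hfin, fun n => ?_⟩
  have hv : Valid (fun _ : Sym2 V => (p : ℝ)) := valid_const p.2.1 p.2.2
  unfold theta
  refine ENNReal.toReal_le_of_le_ofReal (Pr_nonneg hv _) ?_
  rw [← measure_tr (u := G.edgeSet) (fun e he => eIn_edge he) p]
  unfold percMeasure
  refine measure_mono_ae ?_
  filter_upwards [setBernoulli_ae_subset (u := G.edgeSet) (p := p)] with ω hω hinf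
  obtain ⟨y, hy, hyn⟩ : ∃ y ∈ cluster ω x, y ∉ ball G x n := by
    by_contra hc
    push Not at hc
    exact hinf ((ball G x n).finite_toSet.subset hc)
  obtain ⟨ω0, h0, hc⟩ := exists_conn_of_reachable hy
  obtain ⟨b, hb, hcb⟩ := exit_ball (fun e he => hω (h0 e he)) (mem_ball_self x n) hyn hc
  exact ⟨b, hb, hcb.mono fun e he => mem_tr.2 ⟨(mem_inter.1 he).2, h0 e (mem_inter.1 he).1⟩⟩

theorem measure_pos_of_perc (p : I) (o : V) (h : Perc G p o) :
    0 < percMeasure G p (infEvent V) := by
  classical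
  obtain ⟨c, hc, hθ⟩ := h
  set E : ℕ → Set (Set (Sym2 V)) := fun n =>
    {ω | ∃ b ∈ sph G o n, Conn (tr (eIn G (ball G o n)) ω) o b} with hE
  have hEm : ∀ n, MeasurableSet (E n) := fun n =>
    measurableSet_tr (eIn G (ball G o n)) (fun ξ => ∃ b ∈ sph G o n, Conn ξ o b)
  have hEc : ∀ n, ENNReal.ofReal c ≤ percMeasure G p (E n) := by
    intro n
    have := measure_tr (u := G.edgeSet) (U := eIn G (ball G o n))
      (fun e he => eIn_edge he) p (fun ξ => ∃ b ∈ sph G o n, Conn ξ o b)
    unfold percMeasure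
    rw [hE]
    simp only []
    rw [this]
    exact ENNReal.ofReal_le_ofReal (hθ n)
  set F : ℕ → Set (Set (Sym2 V)) := fun n => ⋃ k, ⋃ _ : n ≤ k, E k with hF
  have hFm : ∀ n, MeasurableSet (F n) := fun n =>
    MeasurableSet.iUnion fun k => MeasurableSet.iUnion fun _ => hEm k
  have hanti : Antitone F := fun n n' hn ω hω => by
    simp only [hF, Set.mem_iUnion] at hω ⊢
    obtain ⟨k, hk, h⟩ := hω
    exact ⟨k, hn.trans hk, h⟩
  have hI : ENNReal.ofReal c ≤ percMeasure G p (⋂ n, F n) := by
    rw [hanti.measure_iInter (fun n => (hFm n).nullMeasurableSet)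
      ⟨0, by unfold percMeasure; exact measure_ne_top _ _⟩]
    refine le_iInf fun n => (hEc n).trans (measure_mono ?_)
    intro ω hω
    simp only [hF, Set.mem_iUnion]
    exact ⟨n, le_rfl, hω⟩
  refine lt_of_lt_of_le (ENNReal.ofReal_pos.2 hc) (hI.trans (measure_mono ?_))
  intro ω hω
  refine ⟨o, fun hfin => ?_⟩
  obtain ⟨M, hM⟩ := (hfin.image
    (fun y : V => if h : ∃ n, y ∈ ball G o n then Nat.find h else 0)).bddAbove
  have := Set.mem_iInter.1 hω (M + 1)
  simp only [hF, Set.mem_iUnion] at this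
  obtain ⟨k, hk, b, hb, hcb⟩ := this
  have hex : ∃ n, b ∈ ball G o n := ⟨k, (mem_sph.1 hb).1⟩
  have h1 := hM ⟨b, reachable_of_conn_tr hcb, rfl⟩
  simp only [dif_pos hex] at h1
  exact notMem_ball_of_sph hb (show Nat.find hex < k by omega) (Nat.find_spec hex)

theorem percMeasure_zero (hc : G.Connected) : percMeasure G 0 (infEvent V) = 0 := by
  haveI := Bridge.countable hc
  unfold percMeasure
  rw [setBernoulli_zero, Measure.dirac_apply, Set.indicator_of_notMem]
  rintro ⟨x, hx⟩
  refine hx ((Set.finite_singleton x).subset fun y hy => ?_)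
  simp only [cluster, SimpleGraph.fromEdgeSet_empty, Set.mem_ofPred_eq,
    SimpleGraph.reachable_bot] at hy
  exact hy.symm

end Vale.Agent.P151G
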