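import Vale.Agent.P151G.Miss

/-! Job Chain: a steered chain of moves. -/

namespace Vale.Agent.P151G

open Finset Vale.Agent.P151

variable {V : Type*} [DecidableEq V] {G : SimpleGraph V} [G.LocallyFinite]

namespace Chain

lemma Pr_false {α : Type*} [DecidableEq α] (U : Finset α) (w : α → ℝ) :
    Pr U w (fun _ => False) = 0 := by simp [Pr, Ex]

lemma step {p γ δ ε : ℝ} {M J R : ℕ} {f g : V → ℝ} (h0 : 0 ≤ p) (h1 : p ≤ 1)
    (hT : TargetProp G p γ δ M J) (hM : Mv G p δ ε M R f g) (hf : Lip G f (2 * ε))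
    (hg : Lip G g (2 * ε)) (hε : 0 < ε) (hδ : 0 ≤ δ) (hMR : M ≤ R)
    (hJ : 1000 * (J + M + 2) * ε ≤ 1) (o : V) (U : Finset (Sym2 V)) (w : Sym2 V → ℝ)
    (hw : Valid w) (hU : ∀ e ∈ U, e ∈ G.edgeSet) (lo F c r : ℝ) (R1 : ℕ) (hr : 2 ≤ r)
    (hin : ∀ e ∈ eIn G (bx G o f g (lo - 1 / 4) (F + 2) c (r + 1) R1), e ∈ U ∧ w e = p)
    (ho : o ∉ bx G o f g (lo - 1 / 4) (F + 2) c (r + 1) R1)
    (hout : ∀ e ∈ eIn G (bx G o f g (lo - 4) (F + 5) c (r + 4) R1), e ∈ U ∧ p ≤ w e)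
    (σ l l' x : ℝ) (K : ℕ) (hσ : σ = 2 * ε * (J + 1)) (hl : lo ≤ l) (hl' : l' ≤ l + 1 - σ)
    (hl'' : l' ≤ F) (hx0 : 0 ≤ x) (hx : x ≤ 1 / 2) (hK : K + (R + J + 1) ≤ R1) :
    Pr U w (fun ω => (∃ b ∈ bx G o f g l (F + 1 + x) c (r + x) K, Conn ω o b) ∧
      ¬ ∃ b ∈ bx G o f g l' (F + 1 + (x + σ)) c (r + (x + σ)) (K + (R + J + 1)), Conn ω o b) ≤
      γ := by
  have hJ0 : (0 : ℝ) ≤ J := Nat.cast_nonneg _
  have hM0 : (0 : ℝ) ≤ M := Nat.cast_nonneg _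
  have hJε : 0 ≤ (J : ℝ) * ε := by positivity
  have hMε : 0 ≤ (M : ℝ) * ε := by positivity
  have hσ1 : σ ≤ 1 / 500 := by rw [hσ]; nlinarith
  have hσ2 : 2 * ε ≤ σ := by rw [hσ]; nlinarith
  have hσ3 : (J : ℝ) * (2 * ε) = σ - 2 * ε := by rw [hσ]; ring
  have hσ4 : ((J + 1 : ℕ) : ℝ) * (2 * ε) = σ := by rw [hσ]; push_cast; ring
  have hM1 : (M : ℝ) * (2 * ε) ≤ 1 := by nlinarith
  have he2 : 0 ≤ 2 * ε := by linarith
  set B := bx G o f g l (F + 1 + x) c (r + x) K with hB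
  set B' := bx G o f g l' (F + 1 + (x + σ)) c (r + (x + σ)) (K + (R + J + 1)) with hB'
  have hsub : thick G B (J + 1) ⊆ bx G o f g (lo - 1 / 4) (F + 2) c (r + 1) R1 := by
    intro y hy
    obtain ⟨b, hb, hyb⟩ := mem_thick.1 hy
    obtain ⟨b1, b2, b3, b4⟩ := mem_bx.1 hb
    have e1 := abs_le.1 (hf.ball he2 hyb)
    have e2 := abs_le.1 (hg.ball he2 hyb)
    rw [hσ4] at e1 e2
    have b5 := abs_le.1 b4
    refine mem_bx.2 ⟨ball_mono o (by omega) (ball_trans b1 hyb), by linarith, by linarith, ?_⟩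
    rw [abs_le]; constructor <;> linarith
  have key := hT U w B (B' : Set V) o hw hU (fun e he => hin e (eIn_mono hsub he))
    (fun h => ho (hsub (thick_mono B (Nat.le_succ J) h))) ?_
  · refine le_trans (Pr_mono hw ?_) key
    rintro ω - ⟨ha, hb⟩
    exact ⟨ha, fun ⟨b, hb1, hb2⟩ => hb ⟨b, hb1, hb2⟩⟩
  intro v hv
  obtain ⟨b, hb, hvb⟩ := mem_thick.1 hv
  obtain ⟨b1, b2, b3, b4⟩ := mem_bx.1 hb
  have e1 := abs_le.1 (hf.ball he2 hvb)
  have e2 := abs_le.1 (hg.ball he2 hvb)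
  rw [hσ3] at e1 e2
  have b5 := abs_le.1 b4
  have hvo : v ∈ ball G o (K + J) := ball_trans b1 hvb
  by_cases hF : F ≤ f v
  · have hvB : v ∈ B' := by
      refine mem_bx.2 ⟨ball_mono o (by omega) hvo, by linarith, by linarith, ?_⟩
      rw [abs_le]; constructor <;> linarith
    refine le_trans (Pr_mono hw (B := fun _ => False) ?_) (by rw [Pr_false]; exact hδ)
    intro ω _ h
    exact h ⟨v, mem_ball_self _ _, v, hvB, Conn.refl _ _⟩
  push Not at hF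
  have hreg : reg G f g v R ⊆ bx G o f g (lo - 4) (F + 5) c (r + 4) R1 := by
    intro y hy
    obtain ⟨y1, y2, y3⟩ := mem_reg.1 hy
    have y4 := abs_le.1 y2
    have y5 := abs_le.1 y3
    refine mem_bx.2 ⟨ball_mono o (by omega) (ball_trans hvo y1), by linarith, by linarith, ?_⟩
    rw [abs_le]; constructor <;> linarith
  have hA : ball G v M ⊆ reg G f g v R := by
    intro y hy
    exact mem_reg.2 ⟨ball_mono v hMR hy, (hf.ball he2 hy).trans (by linarith),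
      (hg.ball he2 hy).trans (by linarith)⟩
  refine (miss_bound h0 h1 hw (D := reg G f g v R)
    (fun e he => hout e (eIn_mono hreg he))).trans ?_
  by_cases hc : c ≤ g v
  · refine le_trans (miss_mono h0 h1 Subset.rfl Subset.rfl hA ?_) (hM v (-1) (Or.inr rfl))
    rintro y ⟨t1, t2, t3, t4⟩ hy
    obtain ⟨y1, -, -⟩ := mem_reg.1 hy
    refine mem_coe.2 (mem_bx.2 ⟨ball_mono o (by omega) (ball_trans hvo y1), by linarith,
      by linarith, ?_⟩)
    rw [abs_le]; constructor <;> linarith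
  · push Not at hc
    refine le_trans (miss_mono h0 h1 Subset.rfl Subset.rfl hA ?_) (hM v 1 (Or.inl rfl))
    rintro y ⟨t1, t2, t3, t4⟩ hy
    obtain ⟨y1, -, -⟩ := mem_reg.1 hy
    refine mem_coe.2 (mem_bx.2 ⟨ball_mono o (by omega) (ball_trans hvo y1), by linarith,
      by linarith, ?_⟩)
    rw [abs_le]; constructor <;> linarith

end Chain

theorem chain {p γ δ ε : ℝ} {M J R : ℕ} {f g : V → ℝ} (h0 : 0 ≤ p) (h1 : p ≤ 1)
    (hT : TargetProp G p γ δ M J) (hM : Mv G p δ ε M R f g) (hf : Lip G f (2 * ε))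
    (hg : Lip G g (2 * ε)) (hε : 0 < ε) (hδ : 0 ≤ δ) (hMR : M ≤ R)
    (hJ : 1000 * (J + M + 2) * ε ≤ 1) (o : V) (U : Finset (Sym2 V)) (w : Sym2 V → ℝ)
    (hw : Valid w) (hU : ∀ e ∈ U, e ∈ G.edgeSet) (lo F c r : ℝ) (R0 : ℕ) (hr : 2 ≤ r)
    (hlo : lo ≤ F) (hF : F - lo ≤ 119)
    (hin : ∀ e ∈ eIn G (bx G o f g (lo - 1 / 4) (F + 2) c (r + 1) (R0 + 120 * (R + J + 1))),
      e ∈ U ∧ w e = p)
    (ho : o ∉ bx G o f g (lo - 1 / 4) (F + 2) c (r + 1) (R0 + 120 * (R + J + 1)))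
    (hout : ∀ e ∈ eIn G (bx G o f g (lo - 4) (F + 5) c (r + 4) (R0 + 120 * (R + J + 1))),
      e ∈ U ∧ p ≤ w e) :
    Pr U w (fun ω => (∃ b ∈ bx G o f g lo (F + 1) c r R0, Conn ω o b) ∧
      ¬ ∃ b ∈ bx G o f g F (F + 3 / 2) c (r + 1 / 2) (R0 + 120 * (R + J + 1)), Conn ω o b) ≤
      120 * γ := by
  have hJ0 : (0 : ℝ) ≤ J := Nat.cast_nonneg _
  have hM0 : (0 : ℝ) ≤ M := Nat.cast_nonneg _
  have hJε : 0 ≤ (J : ℝ) * ε := by positivity
  have hMε : 0 ≤ (M : ℝ) * ε := by positivity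
  obtain ⟨σ, hσ⟩ : ∃ σ : ℝ, σ = 2 * ε * (J + 1) := ⟨_, rfl⟩
  have hσ1 : σ ≤ 1 / 500 := by rw [hσ]; nlinarith
  have hσ0 : 0 ≤ σ := by rw [hσ]; positivity
  have main : ∀ s : ℕ, s ≤ 120 →
      Pr U w (fun ω => (∃ b ∈ bx G o f g lo (F + 1) c r R0, Conn ω o b) ∧
        ¬ ∃ b ∈ bx G o f g (min (lo + s * (1 - σ)) F) (F + 1 + s * σ) c (r + s * σ)
          (R0 + s * (R + J + 1)), Conn ω o b) ≤ s * γ := by
    intro s
    induction s with
    | zero =>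
      intro _
      refine le_trans (Pr_mono hw (B := fun _ => False) ?_) (by rw [Chain.Pr_false]; simp)
      rintro ω - ⟨⟨b, hb, hc⟩, hn⟩
      refine hn ⟨b, ?_, hc⟩
      simpa [min_eq_left hlo] using hb
    | succ s ih =>
      intro hs
      have hs' : (s : ℝ) + 1 ≤ 120 := by exact_mod_cast hs
      have hs0 : (0 : ℝ) ≤ s := Nat.cast_nonneg _
      have a1 : 0 ≤ (s : ℝ) * σ := by positivity
      have a2 : (s : ℝ) * σ ≤ 1 / 2 := by nlinarith
      have a3 : 0 ≤ (s : ℝ) * (1 - σ) := mul_nonneg hs0 (by linarith)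
      have st := Chain.step h0 h1 hT hM hf hg hε hδ hMR hJ o U w hw hU lo F c r _ hr hin ho hout σ
        (min (lo + s * (1 - σ)) F) (min (lo + (s + 1 : ℕ) * (1 - σ)) F) (s * σ)
        (R0 + s * (R + J + 1)) hσ (le_min (by linarith) hlo)
        (by
          push_cast
          rcases le_total (lo + s * (1 - σ)) F with h | h
          · rw [min_eq_left h]; exact (min_le_left _ _).trans (by linarith)
          · rw [min_eq_right h]; exact (min_le_right _ _).trans (by linarith))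
        (min_le_right _ _) a1 a2
        (by
          have := Nat.mul_le_mul_right (R + J + 1) hs
          rw [add_mul, one_mul] at this
          omega)
      have e1 : (s : ℝ) * σ + σ = ((s + 1 : ℕ) : ℝ) * σ := by push_cast; ring
      have e2 : R0 + s * (R + J + 1) + (R + J + 1) = R0 + (s + 1) * (R + J + 1) := by ring
      rw [e1, e2] at st
      have e3 : ((s + 1 : ℕ) : ℝ) * γ = s * γ + γ := by push_cast; ring
      rw [e3]
      refine le_trans (Pr_le_add hw ?_) (add_le_add (ih (by omega)) st)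
      rintro ω - ⟨ha, hb⟩
      by_cases h : ∃ b ∈ bx G o f g (min (lo + s * (1 - σ)) F) (F + 1 + s * σ) c (r + s * σ)
          (R0 + s * (R + J + 1)), Conn ω o b
      · exact Or.inr ⟨h, hb⟩
      · exact Or.inl ⟨ha, h⟩
  have m := main 120 le_rfl
  have e120 : ((120 : ℕ) : ℝ) = 120 := by norm_num
  rw [e120] at m
  generalize R0 + 120 * (R + J + 1) = R1 at m ⊢
  refine le_trans (Pr_mono hw ?_) m
  rintro ω - ⟨ha, hb⟩
  refine ⟨ha, ?_⟩
  rintro ⟨b, hb1, hb2⟩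
  refine hb ⟨b, ?_, hb2⟩
  obtain ⟨b1, b2, b3, b4⟩ := mem_bx.1 hb1
  have e : min (lo + 120 * (1 - σ)) F = F := min_eq_right (by linarith)
  rw [e] at b2
  exact mem_bx.2 ⟨b1, b2, by linarith, b4.trans (by linarith)⟩

end Vale.Agent.P151G
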