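import Vale.Agent.P151G.Base
import Vale.Agent.P151.Coarse

/-! Job Coarse: oriented coarse exploration. -/

namespace Vale.Agent.P151G

open Finset Vale.Agent.P151

noncomputable section

variable {V : Type*} [DecidableEq V] {G : SimpleGraph V} [G.LocallyFinite]

namespace Macro

variable {o : V} {p η g : ℝ} (s : Macro G o p η g)

def U (T : ℕ) : Finset (Sym2 V) := s.seed ∪ past s.E (T + 2)

def w0 : Sym2 V → ℝ := P151.cond (fun _ => p) s.seed s.seed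

def R (y : ℕ × ℕ) : Finset (Sym2 V) := past s.E y.1 ∪ s.E y

def reach (y : ℕ × ℕ) (ω : Finset (Sym2 V)) : Prop := ∃ b ∈ s.M y, Conn ω o b

def fail (T : ℕ) (y z : ℕ × ℕ) (ω : Finset (Sym2 V)) : ℝ :=
  Pr (s.U T) (restr (P151.cond s.w0 (s.R y) ω) (s.seed ∪ s.R y ∪ s.E z)) fun ω' => ¬ s.reach z ω'

def Good (T : ℕ) (y : ℕ × ℕ) (ω : Finset (Sym2 V)) : Prop :=
  s.fail T y (y.1 + 1, y.2) ω ≤ η ∧ s.fail T y (y.1 + 1, y.2 + 1) ω ≤ η

lemma valid_w0 (hp : 0 ≤ p ∧ p ≤ 1) : Valid s.w0 := (valid_const hp.1 hp.2).cond _ _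

lemma notMem_past_of_seed {t : ℕ} {e : Sym2 V} (h : e ∈ s.seed) : e ∉ past s.E t := by
  intro h'
  obtain ⟨y, -, -, hy⟩ := mem_past.1 h'
  exact s.E_seed y e hy h

lemma notMem_past_of_E {t : ℕ} {z : ℕ × ℕ} (hz : t ≤ z.1) {e : Sym2 V} (h : e ∈ s.E z) :
    e ∉ past s.E t := by
  intro h'
  obtain ⟨y, -, h2, hy⟩ := mem_past.1 h'
  exact disjoint_left.1 (s.disj (i := y) (j := z) (by rintro rfl; omega)) hy h

lemma U_edge (T : ℕ) : ∀ e ∈ s.U T, e ∈ G.edgeSet := by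
  intro e he
  rcases mem_union.1 he with h | h
  · exact s.seed_edge e h
  · obtain ⟨y, -, -, hy⟩ := mem_past.1 h
    exact s.E_edge y e hy

lemma E_sub_U {T : ℕ} {y : ℕ × ℕ} (h1 : y.2 ≤ y.1) (h2 : y.1 ≤ T + 1) : s.E y ⊆ s.U T :=
  fun _ he => mem_union_right _ (mem_past.2 ⟨y, h1, by omega, he⟩)

lemma seed_sub_U (T : ℕ) : s.seed ⊆ s.U T := subset_union_left

lemma w0_seed {e : Sym2 V} (h : e ∈ s.seed) : s.w0 e = 1 := by simp [w0, P151.cond, h]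
lemma w0_not_seed {e : Sym2 V} (h : e ∉ s.seed) : s.w0 e = p := by simp [w0, P151.cond, h]

/-- moving to a child -/
lemma child_bound (hp : 0 ≤ p ∧ p ≤ 1) {T : ℕ} {y z : ℕ × ℕ} (hy : y.2 ≤ y.1 ∧ y.1 ≤ T)
    (hz : z = (y.1 + 1, y.2) ∨ z = (y.1 + 1, y.2 + 1)) (ξ : Finset (Sym2 V)) :
    Pr (s.U T) (restr (P151.cond s.w0 (past s.E y.1) ξ) (s.seed ∪ s.R y ∪ s.E z))
      (fun ω => s.reach y ω ∧ ¬ s.reach z ω) ≤ g := by
  have hz1 : z.2 ≤ z.1 ∧ z.1 ≤ T + 1 := by rcases hz with rfl | rfl <;> simp <;> omega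
  have hz2 : y.1 ≤ z.1 := by rcases hz with rfl | rfl <;> simp
  refine s.child y z hy.1 hz _ _ (((s.valid_w0 hp).cond _ _).restr _) (s.U_edge T) ?_ ?_
  · intro e he
    refine ⟨s.seed_sub_U T he, ?_⟩
    simp [restr, P151.cond, he, s.notMem_past_of_seed he, s.w0_seed he]
  · rintro e (he | he)
    · refine ⟨s.E_sub_U hy.1 (by omega) he, ?_⟩
      simp [restr, P151.cond, R, he, s.notMem_past_of_E le_rfl he, s.w0_not_seed (s.E_seed _ _ he)]
    · refine ⟨s.E_sub_U hz1.1 hz1.2 he, ?_⟩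
      simp [restr, P151.cond, R, he, s.notMem_past_of_E hz2 he, s.w0_not_seed (s.E_seed _ _ he)]

lemma entry_root (hp : 0 ≤ p ∧ p ≤ 1) {T : ℕ} (ξ : Finset (Sym2 V)) :
    Pr (s.U T) (P151.cond s.w0 (past s.E 0) ξ)
      (fun ω => ¬ s.reach (0, 0) (s.seed ∪ ω ∩ s.R (0, 0))) ≤ η := by
  have v1 : Valid (P151.cond s.w0 (past s.E 0) ξ) := (s.valid_w0 hp).cond _ _
  set D := s.seed ∪ s.R (0, 0) with hD
  have h4 : Pr (s.U T) (restr (P151.cond s.w0 (past s.E 0) ξ) D) (fun ω => ¬ s.reach (0, 0) ω) ≤ η := by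
    refine s.root _ _ (v1.restr _) (s.U_edge T) ?_ ?_
    · intro e he
      refine ⟨s.seed_sub_U T he, ?_⟩
      simp [hD, restr, P151.cond, he, s.notMem_past_of_seed he, s.w0_seed he]
    · intro e he
      refine ⟨s.E_sub_U le_rfl (by simp) he, ?_⟩
      simp [hD, restr, P151.cond, R, he, s.notMem_past_of_E (t := 0) (Nat.zero_le _) he,
        s.w0_not_seed (s.E_seed _ _ he)]
  refine le_trans ?_ h4
  rw [Pr, Pr, Ex_restr]
  refine Ex_mono v1 fun ω _ => ind_mono fun hn ⟨b, hb, hc⟩ => hn ⟨b, hb, hc.mono ?_⟩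
  intro e he
  obtain ⟨h1, h2⟩ := mem_inter.1 he
  rcases mem_union.1 h2 with h | h
  · exact mem_union_left _ h
  · exact mem_union_right _ (mem_inter.2 ⟨h1, h⟩)

lemma fail_nonneg (hp : 0 ≤ p ∧ p ≤ 1) (T : ℕ) (y z : ℕ × ℕ) (ω : Finset (Sym2 V)) : 0 ≤ s.fail T y z ω :=
  Pr_nonneg (((s.valid_w0 hp).cond _ _).restr _) _

lemma markov_child (hp : 0 ≤ p ∧ p ≤ 1) (hη : 0 < η) {T : ℕ} {y z : ℕ × ℕ} (hy : y.2 ≤ y.1 ∧ y.1 ≤ T)
    (hz : z = (y.1 + 1, y.2) ∨ z = (y.1 + 1, y.2 + 1)) (ξ : Finset (Sym2 V)) :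
    Pr (s.U T) (P151.cond s.w0 (past s.E y.1) ξ)
      (fun ω => s.reach y (s.seed ∪ ω ∩ s.R y) ∧ η < s.fail T y z ω) ≤ g / η := by
  set w1 := P151.cond s.w0 (past s.E y.1) ξ with hw1
  have v1 : Valid w1 := (s.valid_w0 hp).cond _ _
  set D := s.seed ∪ s.R y ∪ s.E z with hD
  have e1 : ∀ ω, P151.cond w1 (s.R y) ω = P151.cond s.w0 (s.R y) ω := by
    intro ω; funext e
    by_cases h : e ∈ s.R y
    · simp [P151.cond, h]
    · have : e ∉ past s.E y.1 := fun h' => h (mem_union_left _ h')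
      simp [hw1, P151.cond, h, this]
  have h1 := Ex_cond' (U := s.U T) (w := w1) (s.R y)
    (fun a ω => ind (s.reach y (s.seed ∪ a)) * ind (¬ s.reach z (ω ∩ D)))
  have h2 : Ex (s.U T) w1 (fun ω => ind (s.reach y (s.seed ∪ ω ∩ s.R y)) * s.fail T y z ω) =
      Ex (s.U T) w1 (fun ω => ind (s.reach y (s.seed ∪ ω ∩ s.R y)) * ind (¬ s.reach z (ω ∩ D))) := by
    rw [h1]
    refine Ex_congr fun ω _ => ?_
    rw [Ex_const_mul, e1, fail, Pr, Ex_restr]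
  have h3 : Ex (s.U T) w1 (fun ω => ind (s.reach y (s.seed ∪ ω ∩ s.R y)) *
      ind (¬ s.reach z (ω ∩ D))) ≤ g := by
    refine le_trans ?_ (s.child_bound hp hy hz ξ)
    rw [Pr, Ex_restr]
    refine Ex_mono_ae v1 fun ω _ h0 => ?_
    rw [← ind_and]
    refine ind_mono fun ⟨⟨b, hb, hc⟩, h2⟩ => ⟨⟨b, hb, hc.mono ?_⟩, h2⟩
    intro e he
    rcases mem_union.1 he with h | h
    · refine mem_inter.2 ⟨mem_of_wt_ne_zero h0 (s.seed_sub_U T h) ?_, by simp [h]⟩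
      simp [hw1, P151.cond, s.notMem_past_of_seed h, s.w0_seed h]
    · exact mem_inter.2 ⟨(mem_inter.1 h).1, by simp [(mem_inter.1 h).2]⟩
  rw [le_div_iff₀ hη, mul_comm, Pr, ← Ex_const_mul]
  refine le_trans (Ex_mono v1 fun ω _ => ?_) (h2.le.trans h3)
  by_cases h : s.reach y (s.seed ∪ ω ∩ s.R y) ∧ η < s.fail T y z ω
  · rw [ind_pos h, ind_pos h.1]; linarith [h.2]
  · rw [ind_neg h, mul_zero]; exact mul_nonneg (ind_nonneg _) (s.fail_nonneg hp _ _ _ _)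

lemma not_good_bound (hp : 0 ≤ p ∧ p ≤ 1) (hη : 0 < η) {T : ℕ} {y : ℕ × ℕ} (hy : y.2 ≤ y.1 ∧ y.1 ≤ T) (ξ : Finset (Sym2 V))
    (h : Pr (s.U T) (P151.cond s.w0 (past s.E y.1) ξ)
      (fun ω => ¬ s.reach y (s.seed ∪ ω ∩ s.R y)) ≤ η) :
    Pr (s.U T) (P151.cond s.w0 (past s.E y.1) ξ) (fun ω => ¬ s.Good T y ω) ≤
      η + 2 * (g / η) := by
  have v1 : Valid (P151.cond s.w0 (past s.E y.1) ξ) := (s.valid_w0 hp).cond _ _
  have h1 := s.markov_child hp hη hy (Or.inl rfl) ξ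
  have h2 := s.markov_child hp hη hy (Or.inr rfl) ξ
  have h3 := Pr_or_le (U := s.U T) v1
    (fun ω => s.reach y (s.seed ∪ ω ∩ s.R y) ∧ η < s.fail T y (y.1 + 1, y.2) ω)
    (fun ω => s.reach y (s.seed ∪ ω ∩ s.R y) ∧ η < s.fail T y (y.1 + 1, y.2 + 1) ω)
  refine le_trans (Pr_le_add v1 ?_) ((add_le_add h (h3.trans (add_le_add h1 h2))).trans
    (le_of_eq (by ring)))
  intro ω _ hg
  by_cases hr : s.reach y (s.seed ∪ ω ∩ s.R y)
  · simp only [Good, not_and_or, not_le] at hg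
    exact Or.inr (hg.imp (fun h => ⟨hr, h⟩) fun h => ⟨hr, h⟩)
  · exact Or.inl hr

lemma entry_parent (hp : 0 ≤ p ∧ p ≤ 1) {T : ℕ} {y' y : ℕ × ℕ} (hy' : y'.2 ≤ y'.1) (hy : y.1 = y'.1 + 1)
    (ξ : Finset (Sym2 V)) (h : s.fail T y' y ξ ≤ η) :
    Pr (s.U T) (P151.cond s.w0 (past s.E y.1) ξ) (fun ω => ¬ s.reach y (s.seed ∪ ω ∩ s.R y)) ≤ η := by
  have v1 : Valid (P151.cond s.w0 (past s.E y.1) ξ) := (s.valid_w0 hp).cond _ _
  have hR : s.R y' ⊆ past s.E y.1 := by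
    intro e he
    rcases mem_union.1 he with h | h
    · obtain ⟨u, h1, h2, h3⟩ := mem_past.1 h
      exact mem_past.2 ⟨u, h1, by omega, h3⟩
    · exact mem_past.2 ⟨y', hy', by omega, h⟩
  refine le_trans ?_ h
  set D := s.seed ∪ s.R y' ∪ s.E y with hD
  rw [fail, Pr, Pr, Ex_restr, Ex_inter D (fun ω => ind (¬ s.reach y ω)),
    Ex_congr_w (U := s.U T ∩ D) (w := P151.cond s.w0 (s.R y') ξ) (w' := P151.cond s.w0 (past s.E y.1) ξ),
    ← Ex_inter D (fun ω => ind (¬ s.reach y ω))]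
  · refine Ex_mono v1 fun ω _ => ind_mono fun hn ⟨b, hb, hc⟩ => hn ⟨b, hb, hc.mono ?_⟩
    intro e he
    obtain ⟨h1, h2⟩ := mem_inter.1 he
    simp only [hD, mem_union] at h2
    rcases h2 with (h | h) | h
    · exact mem_union_left _ h
    · exact mem_union_right _ (mem_inter.2 ⟨h1, mem_union_left _ (hR h)⟩)
    · exact mem_union_right _ (mem_inter.2 ⟨h1, mem_union_right _ h⟩)
  · intro e he
    by_cases h1 : e ∈ s.R y'
    · simp [P151.cond, h1, hR h1]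
    · have : e ∉ past s.E y.1 := by
        have h2 := (mem_inter.1 he).2
        simp only [hD, mem_union] at h2
        rcases h2 with (h | h) | h
        · exact s.notMem_past_of_seed h
        · exact absurd h h1
        · exact s.notMem_past_of_E le_rfl h
      simp [P151.cond, h1, this]

lemma good_congr {T : ℕ} {y : ℕ × ℕ} {ω ω' : Finset (Sym2 V)}
    (h : ω ∩ s.R y = ω' ∩ s.R y) : s.Good T y ω ↔ s.Good T y ω' := by
  unfold Good fail
  rw [← cond_inter (s.R y) ω, h, cond_inter]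

/-- some parent is good (or the site is the root) -/
def Par (T t x : ℕ) (ω : Finset (Sym2 V)) : Prop :=
  t = 0 ∨ ∃ t' x', t = t' + 1 ∧ x' ≤ t' ∧ (x = x' ∨ x = x' + 1) ∧ s.Good T (t', x') ω

lemma par_congr {T t x : ℕ} {ω ω' : Finset (Sym2 V)}
    (h : ω ∩ past s.E t = ω' ∩ past s.E t) : s.Par T t x ω ↔ s.Par T t x ω' := by
  have key : ∀ t' x', t = t' + 1 → x' ≤ t' → (s.Good T (t', x') ω ↔ s.Good T (t', x') ω') := by
    intro t' x' h1 h2
    have hR : s.R (t', x') ⊆ past s.E t := by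
      intro e he
      rcases mem_union.1 he with h | h
      · obtain ⟨u, h1, h2, h3⟩ := mem_past.1 h
        exact mem_past.2 ⟨u, h1, by simp only at h2; omega, h3⟩
      · exact mem_past.2 ⟨(t', x'), h2, by simp only; omega, h⟩
    refine s.good_congr ?_
    rw [← inter_eq_right.2 hR, ← inter_assoc, h, inter_assoc]
  unfold Par
  refine or_congr Iff.rfl (exists₂_congr fun t' x' => ?_)
  constructor
  · rintro ⟨h1, h2, h3, h4⟩; exact ⟨h1, h2, h3, (key _ _ h1 h2).1 h4⟩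
  · rintro ⟨h1, h2, h3, h4⟩; exact ⟨h1, h2, h3, (key _ _ h1 h2).2 h4⟩

lemma survive (hp : 0 ≤ p ∧ p ≤ 1) (hη : 0 < η) (hε : η + 2 * (g / η) ≤ 1 / 10 ^ 6) (T : ℕ) :
    Pr (s.U T) s.w0 (fun ω => ∀ x ≤ T, ¬ s.Good T (T, x) ω) ≤ 1 / 2 := by
  refine peierls (s.U T) s.w0 (s.valid_w0 hp) (fun t x ω => ¬ s.Good T (t, x) ω ∧ s.Par T t x ω)
    (fun t x ω => ¬ s.Good T (t, x) ω) T ?_ (fun ω h => ⟨h, Or.inl rfl⟩) ?_
  · refine closed_prod (s.U T) s.w0 (s.valid_w0 hp) s.E s.disj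
      (fun t x ω => ¬ s.Good T (t, x) ω ∧ s.Par T t x ω) T (1 / 10 ^ 6) (by norm_num) ?_ ?_
    · intro t x ω
      refine and_congr (not_congr (s.good_congr ?_)) (s.par_congr ?_)
      · simp [R, inter_assoc]
      · rw [inter_assoc, inter_eq_right.2 subset_union_left]
    · intro t x hx ht ξ hξ
      have v1 : Valid (P151.cond s.w0 (past s.E t) ξ) := (s.valid_w0 hp).cond _ _
      by_cases hq : s.Par T t x ξ
      · refine le_trans (Pr_mono v1 fun ω _ h => h.1)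
          ((s.not_good_bound hp hη (y := (t, x)) ⟨hx, ht⟩ ξ ?_).trans hε)
        rcases hq with rfl | ⟨t', x', rfl, h2, h3, h4⟩
        · obtain rfl : x = 0 := by omega
          exact s.entry_root hp ξ
        · refine s.entry_parent hp (y' := (t', x')) h2 rfl ξ ?_
          rcases h3 with rfl | rfl
          · exact h4.1
          · exact h4.2
      · rw [Pr, Ex_cond_eq_splice _ hξ, Ex_congr (g := fun _ => 0)]
        · simp
        · intro ω _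
          exact ind_neg fun h => hq ((s.par_congr (splice_inter _ _ _)).1 h.2)
  · intro ω t x hx _ hb
    by_cases hp : s.Par T (t + 1) x ω
    · exact Or.inl ⟨hb, hp⟩
    · refine Or.inr ⟨fun h1 hg => hp (Or.inr ⟨t, x, rfl, h1, Or.inl rfl, hg⟩),
        fun x' h1 hg => hp (Or.inr ⟨t, x', rfl, by omega, Or.inr h1, hg⟩)⟩

lemma far_of_good (hη1 : η < 1) {T x : ℕ} (hx : x ≤ T) {ω : Finset (Sym2 V)} (hs : s.seed ⊆ ω)
    (hg : s.Good T (T, x) ω) : ∃ b, b ∉ ball G o T ∧ Conn ω o b := by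
  have h1 := hg.1
  rw [fail, Pr_not] at h1
  obtain ⟨ω', hU, h0, b, hb, hc⟩ := exists_of_Pr_pos (A := s.reach (T + 1, x))
    (fun h => by rw [h] at h1; linarith)
  have g1 : ∀ a a' : V, a ∈ {v | ∀ e ∈ s.E (T + 1, x), v ∉ e} → s(a, a') ∈ ω' → s(a, a') ∈ ω := by
    intro a a' ha he
    by_contra hn
    refine notMem_of_wt_ne_zero h0 (hU he) ?_ he
    unfold restr P151.cond
    split_ifs with g1 g2
    · rfl
    · simp only [mem_union] at g1
      rcases g1 with (g | g) | g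
      · exact absurd (hs g) hn
      · exact absurd g g2
      · exact absurd (Sym2.mem_mk_left a a') (ha _ g)
    · rfl
  have g2 : o ∈ {v | ∀ e ∈ s.E (T + 1, x), v ∉ e} := fun e he ho =>
    s.farE T x hx e he o ho (mem_ball_self _ _)
  rcases Conn.exit (fun a a' ha _ he => g1 a a' ha he) g2 hc with
    ⟨-, h2⟩ | ⟨a, a', h2, h3, h4, h5⟩
  · exact ⟨b, s.farM T x hx b hb, h2⟩
  · have h6 : ∃ e ∈ s.E (T + 1, x), a' ∈ e := by
      by_contra hn; push Not at hn; exact h3 hn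
    obtain ⟨e, he, h7⟩ := h6
    exact ⟨a', s.farE T x hx e he a' h7, h5.trans (Conn.of_mem (g1 a a' h2 h4))⟩

end Macro

theorem Macro.perc {o : V} {p η g : ℝ} (s : Macro G o p η g) (hp0 : 0 < p) (hp1 : p ≤ 1)
    (hη : 0 < η) (hη1 : η < 1) (hε : η + 2 * (g / η) ≤ 1 / 10 ^ 6) : Perc G p o := by
  have hp : 0 ≤ p ∧ p ≤ 1 := ⟨hp0.le, hp1⟩
  refine ⟨(∏ _e ∈ s.seed, p) * (1 / 2), by positivity, fun T => ?_⟩
  refine le_trans ?_ (Pr_far_le_theta hp.1 hp1 (s.U T) (s.U_edge T) o T)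
  refine le_trans ?_ (Ex_ge_cond_open (valid_const hp.1 hp1) (s.seed_sub_U T)
    fun _ => ind_nonneg _)
  refine mul_le_mul_of_nonneg_left ?_ (by positivity)
  have h1 := s.survive hp hη hε T
  have h2 := Pr_not (U := s.U T) (w := s.w0) (fun ω => ∀ x ≤ T, ¬ s.Good T (T, x) ω)
  refine le_trans (by linarith) (Pr_mono_ae (s.valid_w0 hp)
    (A := fun ω => ¬ ∀ x ≤ T, ¬ s.Good T (T, x) ω) fun ω _ h0 h => ?_)
  push Not at h
  obtain ⟨x, hx, hg⟩ := h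
  exact s.far_of_good hη1 hx
    (fun e he => mem_of_wt_ne_zero h0 (s.seed_sub_U T he) (s.w0_seed he)) hg

end

end Vale.Agent.P151G
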