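import Vale.Agent.P151G.Chain

/-! Job DChain: two chains in a row. -/

namespace Vale.Agent.P151G

open Finset Vale.Agent.P151

variable {V : Type*} [DecidableEq V] {G : SimpleGraph V} [G.LocallyFinite]

namespace DChain

lemma tau_bound {τ x r : ℝ} (hτ : |τ| ≤ 1) (h : |x| ≤ r) : -r ≤ τ * x ∧ τ * x ≤ r := by
  have : |τ * x| ≤ r := by
    rw [abs_mul]
    calc |τ| * |x| ≤ 1 * |x| := mul_le_mul_of_nonneg_right hτ (abs_nonneg _)
      _ ≤ r := by rw [one_mul]; exact h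
  exact abs_le.1 this

end DChain

open DChain in
theorem dchain {p γ δ ε τ : ℝ} {M J R : ℕ} {ξ ζ : V → ℝ} (h0 : 0 ≤ p) (h1 : p ≤ 1)
    (hT : TargetProp G p γ δ M J) (hτ : |τ| ≤ 1) {o : V} (ho : ξ o = 0) (hMR : M ≤ R)
    (hξ : Lip G ξ ε) (hζ : Lip G ζ ε) (hM1 : Mv G p δ ε M R ξ fun v => ζ v - τ * ξ v)
    (hM2 : Mv G p δ ε M R ζ ξ) (hε : 0 < ε) (hδ : 0 ≤ δ) (hJ : 1000 * (J + M + 2) * ε ≤ 1)
    (U : Finset (Sym2 V)) (w : Sym2 V → ℝ) (hw : Valid w) (hU : ∀ e ∈ U, e ∈ G.edgeSet)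
    (lo a b c : ℝ) (R0 : ℕ) (hlo : 3 / 4 ≤ lo) (ha : 6 ≤ a) (h2 : lo ≤ a - 1) (h3 : a - lo ≤ 110)
    (h4 : 6 ≤ b - c) (h5 : b - c ≤ 100)
    (hreg : ∀ e, e ∈ eIn G (bx G o ξ (fun v => ζ v - τ * ξ v) (lo - 4) (a + 4) c 8
        (R0 + 240 * (R + J + 1))) ∨
      e ∈ eIn G (bx G o (fun v => ζ v - τ * ξ v) ξ (c - 16) (b + 10) a 6 (R0 + 240 * (R + J + 1))) →
      e ∈ U ∧ p ≤ w e ∧ ((∀ v ∈ e, 1 / 2 ≤ ξ v) → w e = p)) :
    Pr U w (fun ω => (∃ v ∈ bx G o ξ (fun v => ζ v - τ * ξ v) lo a c 4 R0, Conn ω o v) ∧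
      ¬ ∃ v ∈ bx G o ξ ζ (a - 3) (a + 3) (b + τ * a) 1 (R0 + 240 * (R + J + 1)), Conn ω o v) ≤
      240 * γ := by
  have hξ2 : Lip G ξ (2 * ε) := fun u v h => (hξ u v h).trans (by linarith)
  have hζ2 : Lip G ζ (2 * ε) := fun u v h => (hζ u v h).trans (by linarith)
  have hη2 : Lip G (fun v => ζ v - τ * ξ v) (2 * ε) := by
    intro u v h
    have e1 := abs_le.1 (hζ u v h)
    have e2 := tau_bound hτ (hξ u v h)
    rw [abs_le]; constructor <;> nlinarith [e1.1, e1.2, e2.1, e2.2]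
  have c1 := chain h0 h1 hT hM1 hξ2 hη2 hε hδ hMR hJ o U w hw hU lo (a - 1) c 4 R0
    (by norm_num) h2 (by linarith)
  have c2 := chain h0 h1 hT hM2 hζ2 hξ2 hε hδ hMR hJ o U w hw hU (c + τ * a - 11 / 2)
    (b + τ * a - 1) a 2 (R0 + 120 * (R + J + 1)) le_rfl (by linarith) (by linarith)
  have eR : R0 + 120 * (R + J + 1) + 120 * (R + J + 1) = R0 + 240 * (R + J + 1) := by ring
  rw [eR] at c2
  have hle : R0 + 120 * (R + J + 1) ≤ R0 + 240 * (R + J + 1) := by omega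
  generalize R0 + 240 * (R + J + 1) = R2 at c2 hle hreg ⊢
  generalize R0 + 120 * (R + J + 1) = R1 at c1 c2 hle
  clear eR
  have s1 : ∀ l h r : ℝ, lo - 4 ≤ l → h ≤ a + 4 → r ≤ 8 →
      bx G o ξ (fun v => ζ v - τ * ξ v) l h c r R1 ⊆
        bx G o ξ (fun v => ζ v - τ * ξ v) (lo - 4) (a + 4) c 8 R2 := by
    intro l h r e1 e2 e3 v hv
    obtain ⟨v1, v2, v3, v4⟩ := mem_bx.1 hv
    exact mem_bx.2 ⟨ball_mono o hle v1, by linarith, by linarith, v4.trans e3⟩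
  have s2 : ∀ l h r : ℝ, c + τ * a - 10 ≤ l → h ≤ b + τ * a + 4 → r ≤ 6 →
      bx G o ζ ξ l h a r R2 ⊆ bx G o (fun v => ζ v - τ * ξ v) ξ (c - 16) (b + 10) a 6 R2 := by
    intro l h r e1 e2 e3 v hv
    obtain ⟨v1, v2, v3, v4⟩ := mem_bx.1 hv
    have t := tau_bound hτ (v4.trans e3)
    refine mem_bx.2 ⟨v1, ?_, ?_, v4.trans e3⟩
    · show c - 16 ≤ ζ v - τ * ξ v
      nlinarith [t.1, t.2]
    · show ζ v - τ * ξ v ≤ b + 10
      nlinarith [t.1, t.2]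
  have d1 := c1
    (fun e he => by
      obtain ⟨u1, -, u3⟩ := hreg e (Or.inl (eIn_mono
        (s1 _ _ _ (by linarith) (by linarith) (by norm_num)) he))
      refine ⟨u1, u3 fun v hv => ?_⟩
      have := (mem_bx.1 ((mem_eIn.1 he).1 v hv)).2.1
      linarith)
    (fun h => by
      have := (mem_bx.1 h).2.1
      linarith)
    (fun e he => by
      obtain ⟨u1, u2, -⟩ := hreg e (Or.inl (eIn_mono
        (s1 _ _ _ (by linarith) (by linarith) (by norm_num)) he))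
      exact ⟨u1, u2⟩)
  have d2 := c2
    (fun e he => by
      obtain ⟨u1, -, u3⟩ := hreg e (Or.inr (eIn_mono
        (s2 _ _ _ (by linarith) (by linarith) (by norm_num)) he))
      refine ⟨u1, u3 fun v hv => ?_⟩
      have := (abs_le.1 (mem_bx.1 ((mem_eIn.1 he).1 v hv)).2.2.2).1
      linarith)
    (fun h => by
      have := (abs_le.1 (mem_bx.1 h).2.2.2).1
      linarith)
    (fun e he => by
      obtain ⟨u1, u2, -⟩ := hreg e (Or.inr (eIn_mono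
        (s2 _ _ _ (by linarith) (by linarith) (by norm_num)) he))
      exact ⟨u1, u2⟩)
  have e240 : 240 * γ = 120 * γ + 120 * γ := by ring
  rw [e240]
  refine le_trans (Pr_le_add hw ?_) (add_le_add d1 d2)
  rintro ω - ⟨⟨v, hv, hc⟩, hn⟩
  by_cases h : ∃ v ∈ bx G o ξ (fun v => ζ v - τ * ξ v) (a - 1) (a - 1 + 3 / 2) c (4 + 1 / 2) R1,
      Conn ω o v
  · right
    obtain ⟨u, hu, hcu⟩ := h
    obtain ⟨u1, u2, u3, u4⟩ := mem_bx.1 hu
    have u5 : |ξ u - a| ≤ 1 := by rw [abs_le]; constructor <;> linarith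
    have t := tau_bound hτ u5
    have u6 : -(4 + 1 / 2) ≤ ζ u - τ * ξ u - c ∧ ζ u - τ * ξ u - c ≤ 4 + 1 / 2 := abs_le.1 u4
    refine ⟨⟨u, mem_bx.2 ⟨u1, ?_, ?_, u5.trans (by norm_num)⟩, hcu⟩, ?_⟩
    · nlinarith [t.1, t.2, u6.1, u6.2]
    · nlinarith [t.1, t.2, u6.1, u6.2]
    · rintro ⟨x, hx, hcx⟩
      obtain ⟨x1, x2, x3, x4⟩ := mem_bx.1 hx
      have x5 := abs_le.1 x4
      refine hn ⟨x, mem_bx.2 ⟨x1, by linarith, by linarith, ?_⟩, hcx⟩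
      rw [abs_le]; constructor <;> linarith
  · left
    refine ⟨⟨v, ?_, hc⟩, h⟩
    rwa [sub_add_cancel]

end Vale.Agent.P151G
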