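import Vale.Agent.P151G.Base
import Vale.Agent.P151.Target

/-! Job Target: the target lemma on graphs of bounded degree. -/

namespace Vale.Agent.P151G

open Finset Vale.Agent.P151

variable {V : Type*} [DecidableEq V] {G : SimpleGraph V} [G.LocallyFinite]

noncomputable section

namespace TgtAux

lemma mem_thick_succ {B : Finset V} {j : ℕ} {a a' : V} (h : a' ∈ thick G B j)
    (hl : G.Adj a a') : a ∈ thick G B (j + 1) := by
  obtain ⟨b, hb, h1⟩ := mem_thick.1 h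
  exact mem_thick.2 ⟨b, hb, ball_adj h1 hl.symm⟩

lemma exists_center {B : Finset V} {j m : ℕ} (hm : m ≤ j) {a : V} (h : a ∈ thick G B j) :
    ∃ v ∈ thick G B j, a ∈ ball G v m ∧ ball G v m ⊆ thick G B j := by
  obtain ⟨b, hb, h1⟩ := mem_thick.1 h
  have e : j = (j - m) + m := by omega
  rw [e] at h1
  obtain ⟨u, hu, hau⟩ := ball_split h1
  refine ⟨u, mem_thick.2 ⟨b, hb, ball_mono b (Nat.sub_le _ _) hu⟩, hau, fun x hx => ?_⟩
  exact mem_thick.2 ⟨b, hb, ball_subset_ball hu e.ge hx⟩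

open Classical in
/-- edges of `U` touching `Q` -/
def Sig (U : Finset (Sym2 V)) (Q : Finset V) : Finset (Sym2 V) :=
  U.filter fun e => ∃ x ∈ Q, x ∈ e

lemma mem_Sig {U : Finset (Sym2 V)} {Q : Finset V} {e : Sym2 V} :
    e ∈ Sig U Q ↔ e ∈ U ∧ ∃ x ∈ Q, x ∈ e := by
  classical
  simp only [Sig, mem_filter]

open Classical in
/-- outer boundary points of `thick G B j` reached from `o` -/
def Xs (G : SimpleGraph V) [G.LocallyFinite] (B : Finset V) (j : ℕ) (o : V) (ζ : Finset (Sym2 V)) : Finset V :=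
  (thick G B (j + 1)).filter fun a => Conn ζ o a ∧ ∃ a' ∈ thick G B j, G.Adj a a'

lemma mem_Xs {B : Finset V} {j : ℕ} {o a : V} {ζ : Finset (Sym2 V)} :
    a ∈ Xs G B j o ζ ↔ a ∈ thick G B (j + 1) ∧ Conn ζ o a ∧ ∃ a' ∈ thick G B j, G.Adj a a' := by
  classical
  simp only [Xs, mem_filter]

lemma exit_Xs {U ω : Finset (Sym2 V)} (hU : ∀ e ∈ U, e ∈ G.edgeSet) (hω : ω ⊆ U)
    {B : Finset V} {j : ℕ} {o b : V} (ho : o ∉ thick G B j) (hb : b ∈ thick G B j)
    (hc : Conn ω o b) :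
    ∃ a ∈ Xs G B j o (ω \ Sig U (thick G B j)), ∃ a' ∈ thick G B j, s(a, a') ∈ ω := by
  rcases Conn.exit (ω' := ω \ Sig U (thick G B j)) (D := {x | x ∉ thick G B j}) (by
    intro x y hx hy hxy
    refine mem_sdiff.2 ⟨hxy, fun h => ?_⟩
    obtain ⟨-, z, hz, hze⟩ := mem_Sig.1 h
    rcases Sym2.mem_iff.1 hze with rfl | rfl
    · exact hx hz
    · exact hy hz) ho hc with ⟨h1, -⟩ | ⟨a, a', -, h2, h3, h4⟩
  · exact absurd hb h1
  · have h2' : a' ∈ thick G B j := not_not.1 h2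
    have hl : G.Adj a a' := hU _ (hω h3)
    exact ⟨a, mem_Xs.2 ⟨mem_thick_succ h2' hl, h4, a', h2', hl⟩, a', h2', h3⟩

lemma w_Sig {U : Finset (Sym2 V)} (hU : ∀ e ∈ U, e ∈ G.edgeSet) {B : Finset V} {j : ℕ}
    {e : Sym2 V} (he : e ∈ Sig U (thick G B j)) : e ∈ eIn G (thick G B (j + 1)) := by
  obtain ⟨h1, x, hx, hxe⟩ := mem_Sig.1 he
  obtain ⟨y, rfl⟩ := Sym2.mem_iff_exists.1 hxe
  have hl : G.Adj x y := hU _ h1
  exact mk_mem_eIn.2 ⟨thick_mono B (Nat.le_succ j) hx, mem_thick_succ hx hl.symm, hl⟩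

lemma level_bound {Δ : ℕ} (hΔ : ∀ v, G.degree v ≤ Δ) {U : Finset (Sym2 V)} {w : Sym2 V → ℝ} (hw : Valid w)
    (hU : ∀ e ∈ U, e ∈ G.edgeSet) {B : Finset V} {j : ℕ} {o : V} (ho : o ∉ thick G B j)
    {p0 : ℝ} (hp0 : 0 ≤ p0) (hp1 : p0 ≤ 1) (hwp : ∀ e ∈ Sig U (thick G B j), p0 ≤ 1 - w e) (N : ℕ) :
    p0 ^ ((Δ + 1) * N) * Pr U w (fun ω => (Xs G B j o (ω \ Sig U (thick G B j))).Nonempty ∧
      (Xs G B j o (ω \ Sig U (thick G B j))).card ≤ N) ≤
    Pr U w (fun ω => (∃ b ∈ thick G B (j + 1), Conn ω o b) ∧ ¬ ∃ b ∈ thick G B j, Conn ω o b) := by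
  classical
  set S := Sig U (thick G B j) with hS
  let Z : Finset V → Finset (Sym2 V) := fun X => S.filter fun e => ∃ a ∈ X, a ∈ e
  have hZ : ∀ X, (Z X).card ≤ (Δ + 1) * X.card := by
    intro X
    have h1 : Z X ⊆ X.biUnion fun a => (ball G a 1).image fun y => s(a, y) := by
      intro e he
      obtain ⟨h1, a, ha, hae⟩ := mem_filter.1 he
      obtain ⟨y, rfl⟩ := Sym2.mem_iff_exists.1 hae
      have hl : G.Adj a y := hU _ (mem_Sig.1 h1).1
      exact mem_biUnion.2 ⟨a, ha, mem_image.2 ⟨y, ball_adj (mem_ball_self a 0) hl, rfl⟩⟩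
    refine (card_le_card h1).trans (card_biUnion_le.trans ?_)
    rw [mul_comm, ← smul_eq_mul, ← sum_const]
    exact sum_le_sum fun a _ => card_image_le.trans (by simpa using card_ball hΔ a 1)
  have e1 := TargetAux.Ex_two (U := U) (w := w) S (fun a b =>
    ind ((Xs G B j o b).Nonempty ∧ (Xs G B j o b).card ≤ N) * ind (Disjoint a (Z (Xs G B j o b))))
  refine le_trans ?_ (le_trans e1.ge ?_)
  · unfold Pr
    rw [← Ex_const_mul]
    refine Ex_mono hw fun b _ => ?_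
    rw [Ex_const_mul, mul_comm]
    by_cases hb : (Xs G B j o (b \ S)).Nonempty ∧ (Xs G B j o (b \ S)).card ≤ N
    · refine mul_le_mul_of_nonneg_left ?_ (ind_nonneg _)
      have hsub : Z (Xs G B j o (b \ S)) ⊆ S := filter_subset _ _
      have h2 : Ex U w (fun a => ind (Disjoint (a ∩ S) (Z (Xs G B j o (b \ S))))) =
          Pr U w (fun a => Disjoint a (Z (Xs G B j o (b \ S)))) := by
        refine Ex_congr fun a _ => ind_congr ?_
        beta_reduce
        rw [disjoint_iff_inter_eq_empty, disjoint_iff_inter_eq_empty, inter_assoc,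
          inter_eq_right.2 hsub]
      rw [h2, Pr_all_closed (hsub.trans fun e he => (mem_Sig.1 he).1)]
      calc p0 ^ ((Δ + 1) * N) ≤ p0 ^ (Z (Xs G B j o (b \ S))).card :=
            pow_le_pow_of_le_one hp0 hp1 ((hZ _).trans (Nat.mul_le_mul_left _ hb.2))
        _ = ∏ e ∈ Z (Xs G B j o (b \ S)), p0 := by simp
        _ ≤ _ := prod_le_prod (fun _ _ => hp0) fun e he => hwp e (hsub he)
    · simp [ind_neg hb]
  · refine Ex_mono hw fun ω hω => ?_
    rw [← ind_and]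
    refine ind_mono ?_
    rintro ⟨⟨⟨a, ha⟩, -⟩, hdis⟩
    refine ⟨⟨a, (mem_Xs.1 ha).1, (mem_Xs.1 ha).2.1.mono sdiff_subset⟩, ?_⟩
    rintro ⟨b, hb, hc⟩
    obtain ⟨x, hx, x', hx', hxx⟩ := exit_Xs hU hω ho hb hc
    have h1 : s(x, x') ∈ S := mem_Sig.2 ⟨hω hxx, x', hx', by simp⟩
    exact disjoint_left.1 hdis (mem_inter.2 ⟨hxx, h1⟩) (mem_filter.2 ⟨h1, x, hx, by simp⟩)

lemma telescope {U : Finset (Sym2 V)} {w : Sym2 V → ℝ}
    (B : Finset V) (o : V) (m K : ℕ) :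
    ∑ k ∈ range K, Pr U w (fun ω => (∃ b ∈ thick G B (m + k + 1), Conn ω o b) ∧
      ¬ ∃ b ∈ thick G B (m + k), Conn ω o b) =
    Pr U w (fun ω => ∃ b ∈ thick G B (m + K), Conn ω o b) -
      Pr U w (fun ω => ∃ b ∈ thick G B m, Conn ω o b) := by
  induction K with
  | zero => simp
  | succ K ih =>
    rw [sum_range_succ, ih]
    have h1 := Pr_and_add_and_not (U := U) (w := w)
      (fun ω => ∃ b ∈ thick G B (m + K + 1), Conn ω o b) (fun ω => ∃ b ∈ thick G B (m + K), Conn ω o b)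
    have h2 : Pr U w (fun ω => (∃ b ∈ thick G B (m + K + 1), Conn ω o b) ∧
        ∃ b ∈ thick G B (m + K), Conn ω o b) =
        Pr U w (fun ω => ∃ b ∈ thick G B (m + K), Conn ω o b) :=
      Pr_congr fun ω _ => ⟨fun h => h.2, fun ⟨b, hb, hc⟩ =>
        ⟨⟨b, thick_mono B (Nat.le_succ _) hb, hc⟩, b, hb, hc⟩⟩
    rw [← add_assoc]
    linarith

lemma exists_seed {Δ : ℕ} (hΔ : ∀ v, G.degree v ≤ Δ) {U : Finset (Sym2 V)} {w : Sym2 V → ℝ} (hw : Valid w)
    {B : Finset V} {j m : ℕ} (hm : m ≤ j) {T : Set V} {δ : ℝ}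
    (hin : ∀ e ∈ eIn G (thick G B (j + 1)), e ∈ U)
    (hT : ∀ v ∈ thick G B j, Pr U w (fun ω => ¬ ∃ a ∈ ball G v m, ∃ b ∈ T, Conn ω a b) ≤ δ)
    (a : V) (ha : ∃ a' ∈ thick G B j, G.Adj a a') :
    ∃ S ⊆ Sig U (thick G B j), S.card ≤ ((Δ + 1) ^ m) ^ 2 + 1 ∧
      (∀ e ∈ S, ∃ x ∈ e, x ∈ ball G a (2 * m + 1)) ∧ (∀ e ∈ S, ∀ x ∈ e, x ∈ ball G a (2 * m + 1)) ∧
      Pr U w (fun ω => S ⊆ ω ∧ ¬ ∃ b ∈ T, Conn ω a b) ≤ (∏ e ∈ S, w e) * δ := by
  classical
  obtain ⟨a', ha', hl⟩ := ha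
  obtain ⟨v, hv, hav, hbox⟩ := exists_center hm ha'
  have hsub : insert s(a, a') (eIn G (ball G v m)) ⊆ Sig U (thick G B j) := by
    intro e he
    rcases mem_insert.1 he with rfl | he
    · exact mem_Sig.2 ⟨hin _ (mk_mem_eIn.2 ⟨mem_thick_succ ha' hl,
        thick_mono B (Nat.le_succ j) ha', hl⟩), a', ha', by simp⟩
    · refine mem_Sig.2 ⟨hin _ (eIn_mono (hbox.trans (thick_mono B (Nat.le_succ j))) he), ?_⟩
      induction e using Sym2.ind with
      | _ x y => exact ⟨x, hbox (mk_mem_eIn.1 he).1, by simp⟩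
  have hall : ∀ e ∈ insert s(a, a') (eIn G (ball G v m)), ∀ x ∈ e, x ∈ ball G a (2 * m + 1) := by
    intro e he x hx
    have a2 : a' ∈ ball G a 1 := ball_adj (mem_ball_self a 0) hl
    rcases mem_insert.1 he with rfl | he
    · rcases Sym2.mem_iff.1 hx with rfl | rfl
      · exact mem_ball_self _ _
      · exact ball_mono _ (by omega) a2
    · have a3 := (mem_eIn.1 he).1 x hx
      exact ball_mono _ (by omega) (ball_trans (ball_trans a2 (ball_symm hav)) a3)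
  refine ⟨insert s(a, a') (eIn G (ball G v m)), hsub, ?_, ?_, hall, ?_⟩
  · refine (card_insert_le _ _).trans (Nat.add_le_add_right ((card_eIn_le _).trans ?_) 1)
    exact Nat.pow_le_pow_left (card_ball hΔ v m) 2
  · intro e he
    induction e using Sym2.ind with
    | _ x y => exact ⟨x, by simp, hall _ he x (by simp)⟩
  · set S := insert s(a, a') (eIn G (ball G v m)) with hS
    have hSU : S ⊆ U := hsub.trans fun e he => (mem_Sig.1 he).1
    have h1 := harris_mono_anti (U := U) hw (f := fun ω => ind (S ⊆ ω))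
      (g := fun ω => ind (¬ ∃ a ∈ ball G v m, ∃ b ∈ T, Conn ω a b))
      (fun x y h => ind_mono fun h' => h'.trans h)
      (fun x y h => ind_mono fun h' ⟨a, ha, b, hb, hc⟩ => h' ⟨a, ha, b, hb, hc.mono h⟩)
    have h2 := Pr_all_open (w := w) hSU
    unfold Pr at h2
    rw [h2] at h1
    refine le_trans (Ex_mono hw fun ω _ => ?_) (h1.trans (mul_le_mul_of_nonneg_left (hT v hv)
      (prod_nonneg fun e _ => (hw e).1)))
    rw [← ind_and]
    refine ind_mono fun ⟨h3, h4⟩ => ⟨h3, ?_⟩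
    rintro ⟨x, hx, b, hb, hc⟩
    have h5 : eIn G (ball G v m) ⊆ ω := (subset_insert _ _).trans h3
    exact h4 ⟨b, hb, (((Conn.of_mem (h3 (mem_insert_self _ _))).trans
      (conn_ball h5 hav).symm).trans (conn_ball h5 hx)).trans hc⟩

lemma exists_separated {Δ : ℕ} (hΔ : ∀ v, G.degree v ≤ Δ) (r N : ℕ) (X : Finset V)
    (h : (Δ + 1) ^ (2 * r) * N < X.card) :
    ∃ Y ⊆ X, N < Y.card ∧ ∀ x ∈ Y, ∀ y ∈ Y, x ≠ y → ∀ z ∈ ball G x r, z ∉ ball G y r := by
  induction N generalizing X with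
  | zero =>
    obtain ⟨x, hx⟩ : X.Nonempty := card_pos.1 (by simpa using h)
    refine ⟨{x}, by simpa using hx, by simp, fun a ha b hb hab => ?_⟩
    exact absurd ((mem_singleton.1 ha).trans (mem_singleton.1 hb).symm) hab
  | succ N ih =>
    obtain ⟨x, hx⟩ : X.Nonempty := card_pos.1 (by omega)
    have h1 : (ball G x (2 * r)).card ≤ (Δ + 1) ^ (2 * r) := card_ball hΔ x _
    have h2 : X.card ≤ (X \ ball G x (2 * r)).card + (ball G x (2 * r)).card :=
      card_le_card_sdiff_add_card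
    have h3 : (Δ + 1) ^ (2 * r) * N < (X \ ball G x (2 * r)).card := by
      rw [mul_add, mul_one] at h
      omega
    obtain ⟨Y, hY, hc, hsep⟩ := ih _ h3
    have hfar : ∀ y ∈ Y, ∀ z ∈ ball G x r, z ∉ ball G y r := fun y hy z hz hz' =>
      (mem_sdiff.1 (hY hy)).2 (by rw [two_mul]; exact ball_trans hz (ball_symm hz'))
    have hxY : x ∉ Y := fun hxY => (mem_sdiff.1 (hY hxY)).2 (mem_ball_self _ _)
    refine ⟨insert x Y, insert_subset hx (hY.trans sdiff_subset), ?_, ?_⟩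
    · rw [card_insert_of_notMem hxY]; omega
    · intro a ha b hb hab z hz hz'
      rcases mem_insert.1 ha with rfl | ha' <;> rcases mem_insert.1 hb with rfl | hb'
      · exact hab rfl
      · exact hfar b hb' z hz hz'
      · exact hfar a ha' z hz' hz
      · exact hsep a ha' b hb' hab z hz hz'

end TgtAux

end

open TgtAux in
theorem target {Δ : ℕ} (hΔ : ∀ v, G.degree v ≤ Δ) (p0 γ : ℝ) (hp0 : 0 < p0) (hγ : 0 < γ) :
    ∃ δ > 0, ∀ m : ℕ, ∃ J : ℕ, ∀ p : ℝ, p0 ≤ p → p ≤ 1 - p0 → TargetProp G p γ δ m J := by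
  classical
  set c : ℝ := 4 / γ with hc
  have hc0 : 0 < c := by positivity
  refine ⟨γ ^ 2 / (16 * (c + 1)), by positivity, fun m => ?_⟩
  set δ : ℝ := γ ^ 2 / (16 * (c + 1)) with hδ
  set s : ℕ := ((Δ + 1) ^ m) ^ 2 + 1 with hs
  obtain ⟨N, hN⟩ := exists_nat_ge (c / p0 ^ s)
  set N' : ℕ := (Δ + 1) ^ (2 * (2 * m + 1)) * N with hN'
  obtain ⟨K, hK⟩ := exists_nat_gt (c / p0 ^ ((Δ + 1) * N'))
  refine ⟨m + K, fun p hp hp' U w B T o hw hU hfresh ho hT => ?_⟩
  have hp1 : p0 ≤ 1 := by linarith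
  have hfr : ∀ k < K, ∀ e ∈ eIn G (thick G B (m + k + 1)), e ∈ U ∧ w e = p := fun k hk e he =>
    hfresh e (eIn_mono (thick_mono B (by omega)) he)
  have hok : ∀ k < K, o ∉ thick G B (m + k) := fun k hk h => ho (thick_mono B (by omega) h)
  obtain ⟨k, hk, hlev⟩ : ∃ k < K, Pr U w (fun ω =>
      (Xs G B (m + k) o (ω \ Sig U (thick G B (m + k)))).Nonempty ∧
      (Xs G B (m + k) o (ω \ Sig U (thick G B (m + k)))).card ≤ N') ≤ γ / 4 := by
    by_contra hcon
    push Not at hcon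
    have h1 := telescope (G := G) (U := U) (w := w) B o m K
    have h2 : ∑ _k ∈ range K, p0 ^ ((Δ + 1) * N') * (γ / 4) ≤ _ := sum_le_sum fun k hk =>
      (mul_le_mul_of_nonneg_left (hcon k (mem_range.1 hk)).le (by positivity)).trans
        (level_bound hΔ hw hU (hok k (mem_range.1 hk)) hp0.le hp1 (fun e he => by
          rw [(hfr k (mem_range.1 hk) e (w_Sig hU he)).2]; linarith) N')
    rw [h1, sum_const, card_range, nsmul_eq_mul] at h2
    have h3 := Pr_le_one (U := U) hw (fun ω => ∃ b ∈ thick G B (m + K), Conn ω o b)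
    have h4 := Pr_nonneg (U := U) hw (fun ω => ∃ b ∈ thick G B m, Conn ω o b)
    rw [div_lt_iff₀ (by positivity), hc, div_lt_iff₀ hγ] at hK
    nlinarith
  set j := m + k with hj
  set S := Sig U (thick G B j) with hS
  have hseed := exists_seed hΔ (U := U) hw (B := B) (j := j) (m := m) (by omega) (T := T) (δ := δ)
    (fun e he => (hfr k hk e he).1) (fun v hv => hT v (thick_mono B (by omega) hv))
  choose! seed sd1 sd2 sd3 sd4 sd5 using hseed
  let good : V → Finset (Sym2 V) → Prop := fun a ξ =>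
    Pr U (cond w S ξ) (fun ω => ¬ ∃ b ∈ T, Conn ω a b) ≤ γ / 4
  have good_inter : ∀ a ξ, good a (ξ ∩ S) ↔ good a ξ := fun a ξ => by simp only [good, cond_inter]
  have hbad : ∀ a, (∃ a' ∈ thick G B j, G.Adj a a') →
      Pr U w (fun ω => seed a ⊆ ω ∧ ¬ good a ω) ≤ (∏ e ∈ seed a, w e) * (δ * c) := by
    intro a ha
    have h1 := Ex_cond' (U := U) (w := w) S
      (fun x ω => ind (seed a ⊆ x) * ind (¬ ∃ b ∈ T, Conn ω a b))
    have hsS : seed a ⊆ S := sd1 a ha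
    simp only [subset_inter_iff, hsS, and_true, Ex_const_mul] at h1
    have h2 : γ / 4 * Pr U w (fun ω => seed a ⊆ ω ∧ ¬ good a ω) ≤ (∏ e ∈ seed a, w e) * δ := by
      refine le_trans ?_ (sd5 a ha)
      unfold Pr
      rw [← Ex_const_mul, Ex_congr fun ω _ => ind_and (seed a ⊆ ω) _, h1]
      refine Ex_mono hw fun ξ _ => ?_
      rw [ind_and, mul_left_comm]
      refine mul_le_mul_of_nonneg_left ?_ (ind_nonneg _)
      by_cases hg : good a ξ
      · rw [ind_neg (not_not.2 hg), mul_zero]; exact Pr_nonneg (hw.cond _ _) _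
      · rw [ind_pos hg, mul_one]; exact (not_le.1 hg).le
    rw [← mul_assoc, hc, mul_div_assoc', le_div_iff₀ hγ]
    linarith
  have hmany : ∀ X : Finset V, (∀ a ∈ X, ∃ a' ∈ thick G B j, G.Adj a a') → N' < X.card →
      Pr U w (fun ω => ∀ a ∈ X, ¬ good a ω) ≤ γ / 2 := by
    intro X hX hcard
    obtain ⟨Y, hYX, hY, hsep⟩ := exists_separated hΔ (2 * m + 1) N X hcard
    refine (Pr_mono hw (B := fun ω => ∀ a ∈ Y, ¬ good a ω) fun ω _ h a ha => h a (hYX ha)).trans ?_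
    refine (TargetAux.seeds_bound hw seed good Y ?_ (fun a ha => (sd1 a (hX a (hYX ha))).trans
      fun e he => (mem_Sig.1 he).1) hc0 (κ := δ * c) (by positivity) ?_
      (fun a ha => hbad a (hX a (hYX ha)))).trans (le_of_eq ?_)
    · intro x hx y hy hxy
      rw [Function.onFun, disjoint_left]
      intro e h1 h2
      obtain ⟨z, hz, hz'⟩ := sd3 x (hX x (hYX hx)) e h1
      exact hsep x hx y hy hxy z hz' (sd4 y (hX y (hYX hy)) e h2 z hz)
    · have h1 : ∑ _a ∈ Y, p0 ^ s ≤ ∑ a ∈ Y, ∏ e ∈ seed a, w e := by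
        refine sum_le_sum fun a ha => ?_
        have ha' := hX a (hYX ha)
        calc p0 ^ s ≤ p0 ^ (seed a).card := pow_le_pow_of_le_one hp0.le hp1 (sd2 a ha')
          _ = ∏ e ∈ seed a, p0 := by simp
          _ ≤ _ := prod_le_prod (fun _ _ => hp0.le) fun e he => by
            rw [(hfr k hk e (w_Sig hU (sd1 a ha' he))).2]; exact hp
      rw [sum_const, nsmul_eq_mul] at h1
      rw [div_le_iff₀ (by positivity)] at hN
      have h2 : (N : ℝ) ≤ Y.card := by exact_mod_cast hY.le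
      have h3 : (0 : ℝ) < p0 ^ s := by positivity
      nlinarith
    · rw [hδ, hc]; field_simp; ring
  have hB : Pr U w (fun ω => N' < (Xs G B j o (ω \ S)).card ∧
      ∀ a ∈ Xs G B j o (ω \ S), ¬ good a ω) ≤ γ / 2 := by
    have h1 := TargetAux.Ex_two (U := U) (w := w) S (fun a b =>
      ind (N' < (Xs G B j o b).card ∧ ∀ x ∈ Xs G B j o b, ¬ good x a))
    simp only [good_inter] at h1
    unfold Pr
    rw [h1, ← Ex_const (U := U) (w := w) (γ / 2)]
    refine Ex_mono hw fun b _ => ?_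
    exact PeierlsAux.Pr_const_and _ _ (by positivity) fun h =>
      hmany _ (fun a ha => (mem_Xs.1 ha).2.2) h
  have hC : Pr U w (fun ω => (∃ a, (a ∈ thick G B (j + 1) ∧ good a ω) ∧ Conn ω o a) ∧
      ¬ ∃ b ∈ T, Conn ω o b) ≤ γ / 4 := by
    have h1 := Ex_cond' (U := U) (w := w) S (fun x ω =>
      ind ((∃ a, (a ∈ thick G B (j + 1) ∧ good a x) ∧ Conn ω o a) ∧ ¬ ∃ b ∈ T, Conn ω o b))
    simp only [good_inter] at h1
    unfold Pr
    rw [h1, ← Ex_const (U := U) (w := w) (γ / 4)]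
    refine Ex_mono hw fun ξ _ => ?_
    have h2 := gluing U _ (hw.cond S ξ) o ((thick G B (j + 1)).filter fun a => good a ξ) T (γ / 4)
      (by positivity) fun a ha => (mem_filter.1 ha).2
    simp only [mem_filter] at h2
    exact h2
  refine le_trans (Pr_le_add hw ?_) (le_trans (add_le_add (le_trans (Pr_or_le hw _ _)
    (add_le_add hlev hB)) hC) (le_of_eq (by ring)))
  rintro ω hω ⟨⟨b, hb, hc⟩, hn⟩
  obtain ⟨a, ha, -⟩ := exit_Xs hU hω (hok k hk) (subset_thick B _ hb) hc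
  by_cases h1 : (Xs G B j o (ω \ S)).card ≤ N'
  · exact Or.inl (Or.inl ⟨⟨a, ha⟩, h1⟩)
  by_cases h2 : ∀ a ∈ Xs G B j o (ω \ S), ¬ good a ω
  · exact Or.inl (Or.inr ⟨not_le.1 h1, h2⟩)
  push Not at h2
  obtain ⟨x, hx, hg⟩ := h2
  exact Or.inr ⟨⟨x, ⟨(mem_Xs.1 hx).1, hg⟩, (mem_Xs.1 hx).2.1.mono sdiff_subset⟩, hn⟩

end Vale.Agent.P151G
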