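import Vale.Agent.P151G.Miss
import Vale.Agent.P151G.Target

/-! Job Dense: relatively dense targets are hit. -/

namespace Vale.Agent.P151G

open Finset Vale.Agent.P151

variable {V : Type*} [DecidableEq V] {G : SimpleGraph V} [G.LocallyFinite]

theorem dense_estimate {Δ : ℕ} (hΔ : ∀ v, G.degree v ≤ Δ) {p : ℝ} (hp0 : 0 < p) (hp1 : p < 1)
    (o : V) (m M : ℕ) {c ε : ℝ} (hε : 0 < ε)
    (hm : ∀ n : ℕ, m ≤ n → miss G p (ball G o n) (ball G o m) (sph G o n) ≤ c) :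
    ∃ D0 : ℕ, m ≤ D0 ∧ ∀ T : Set V, (∀ u, ∃ b ∈ T, b ∈ ball G u M) → ∀ R : ℕ, D0 ≤ R →
      miss G p (ball G o R) (ball G o m) T ≤ c + ε := by
  set N : ℝ := ((ball G o m).card : ℝ) with hN
  have hN0 : 0 ≤ N := by positivity
  obtain ⟨δ, hδ, hJ⟩ := target hΔ (min p (1 - p)) (ε / (N + 1)) (lt_min hp0 (by linarith))
    (by positivity)
  obtain ⟨J, hJ⟩ := hJ M
  have TP := hJ p (min_le_left _ _) (by linarith [min_le_right p (1 - p)])
  refine ⟨m + J + 1 + J + 1, by omega, fun T hT R hR => ?_⟩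
  have hv : Valid (fun _ : Sym2 V => p) := valid_const hp0.le hp1.le
  set n := m + J + 1 with hn
  have h1 : Pr (eIn G (ball G o R)) (fun _ => p)
      (fun ω => ¬ ∃ a ∈ ball G o m, ∃ b ∈ (sph G o n : Set V), Conn ω a b) ≤ c :=
    (miss_bound hp0.le hp1.le hv fun e he =>
      ⟨eIn_mono (ball_mono o (by omega)) he, le_rfl⟩).trans (hm n (by omega))
  have h2 : ∀ a ∈ ball G o m, Pr (eIn G (ball G o R)) (fun _ => p)
      (fun ω => (∃ b ∈ sph G o n, Conn ω a b) ∧ ¬ ∃ b ∈ T, Conn ω a b) ≤ ε / (N + 1) := by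
    intro a ha
    refine TP _ _ (sph G o n) T a hv (fun e he => eIn_edge he) ?_ ?_ ?_
    · intro e he
      refine ⟨eIn_mono ?_ he, rfl⟩
      intro x hx
      obtain ⟨b, hb, hx⟩ := mem_thick.1 hx
      exact ball_subset_ball (mem_sph.1 hb).1 (by omega) hx
    · intro h
      obtain ⟨b, hb, hx⟩ := mem_thick.1 h
      exact notMem_ball_of_sph hb (k := m + J) (by omega) (ball_trans ha (ball_symm hx))
    · intro v _
      obtain ⟨b, hb, hbv⟩ := hT v
      have : Pr (eIn G (ball G o R)) (fun _ => p)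
          (fun ω => ¬ ∃ a ∈ ball G v M, ∃ b ∈ T, Conn ω a b) =
          Pr (eIn G (ball G o R)) (fun _ => p) (fun _ => False) :=
        Pr_congr fun ω _ => ⟨fun h => h ⟨b, hbv, b, hb, Conn.refl _ _⟩, False.elim⟩
      rw [this]
      simpa [Pr] using hδ.le
  have h3 : Pr (eIn G (ball G o R)) (fun _ => p) (fun ω => ∃ a ∈ ball G o m,
      (∃ b ∈ sph G o n, Conn ω a b) ∧ ¬ ∃ b ∈ T, Conn ω a b) ≤ ε := by
    refine (Pr_exists_le hv _ _).trans ((sum_le_sum h2).trans ?_)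
    rw [sum_const, nsmul_eq_mul, ← hN, ← mul_div_assoc, div_le_iff₀ (by linarith)]
    nlinarith
  refine le_trans (Pr_le_add hv ?_) (add_le_add h1 h3)
  intro ω _ hω
  by_cases h : ∃ a ∈ ball G o m, ∃ b ∈ (sph G o n : Set V), Conn ω a b
  · obtain ⟨a, ha, b, hb, hc⟩ := h
    exact Or.inr ⟨a, ha, ⟨b, hb, hc⟩, fun ⟨b', hb', hc'⟩ => hω ⟨a, ha, b', hb', hc'⟩⟩
  · exact Or.inl h

end Vale.Agent.P151G
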