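import Vale.Agent.P151G.MissB

/-! Job FrameOf: normalisation and transport to all vertices. -/

namespace Vale.Agent.P151G

open Finset Vale.Agent.P151

variable {V : Type*} [DecidableEq V] {G : SimpleGraph V} [G.LocallyFinite]

namespace FrameOf

lemma small {ε : ℝ} {c W k a : ℕ} (hε : 0 < ε) (hc : 4 * (c : ℝ) ≤ ε * W) (hk : W * k ≤ a)
    (ha : 0 < a) {z : ℤ} (hz : |z| ≤ c * k) : |(z : ℝ) / a| ≤ ε / 4 := by
  have ha' : (0 : ℝ) < a := by exact_mod_cast ha
  have hz' : |(z : ℝ)| ≤ c * k := by exact_mod_cast hz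
  have hk' : (W : ℝ) * k ≤ a := by exact_mod_cast hk
  have k0 : (0 : ℝ) ≤ k := by positivity
  rw [abs_div, abs_of_pos ha', div_le_iff₀ ha']
  have h1 : 4 * (c : ℝ) * k ≤ ε * W * k := mul_le_mul_of_nonneg_right hc k0
  have h2 : ε * (W * k) ≤ ε * a := mul_le_mul_of_nonneg_left hk' hε.le
  nlinarith

lemma abs_tau {τ x c : ℝ} (hτ : |τ| ≤ 1) (hx : |x| ≤ c) : |τ * x| ≤ c := by
  rw [abs_mul]
  calc |τ| * |x| ≤ 1 * |x| := mul_le_mul_of_nonneg_right hτ (abs_nonneg _)
    _ ≤ c := by rw [one_mul]; exact hx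

end FrameOf

open FrameOf in
theorem frame_of_ifr {o : V} {p δ ε : ℝ} {m ρ W : ℕ} (h0 : 0 ≤ p) (h1 : p ≤ 1)
    (h : IFr G o p δ m ρ W) (hε0 : 0 < ε) (hε1 : ε ≤ 1 / 10) (hW : 4 * (m + ρ + 2) ≤ ε * W) :
    Frame G o p δ ε (m + ρ) := by
  obtain ⟨X, Y, a, h, kX, kY, R, t, X0, Y0, k1, k2, hWa, hWh, ht, hmR, hlip, hnet, hmv⟩ := h
  have m0 : (0 : ℝ) ≤ m := by positivity
  have r0 : (0 : ℝ) ≤ ρ := by positivity
  have W0 : (0 : ℝ) ≤ W := by positivity
  have hWm : (m : ℝ) + 1 ≤ W := by nlinarith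
  have hWm' : m + 1 ≤ W := by exact_mod_cast hWm
  have a0 : 0 < a := lt_of_lt_of_le (Nat.mul_pos (by omega) (by omega)) hWa
  have hh0 : 0 < h := lt_of_lt_of_le (Nat.mul_pos (by omega) (by omega)) hWh
  have a0' : (0 : ℝ) < a := by exact_mod_cast a0
  have hh0' : (0 : ℝ) < h := by exact_mod_cast hh0
  have c1 : 4 * ((1 : ℕ) : ℝ) ≤ ε * W := by push_cast; linarith
  have cρ : 4 * (ρ : ℝ) ≤ ε * W := by linarith
  have lX : ∀ u v, G.Adj u v → |X u - X v| ≤ kX := fun u v huv => (hlip u v huv).1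
  have lY : ∀ u v, G.Adj u v → |Y u - Y v| ≤ kY := fun u v huv => (hlip u v huv).2
  have hτ : |(t : ℝ) / h| ≤ 1 := by
    rw [abs_div, abs_of_pos hh0', div_le_one hh0']; exact_mod_cast ht
  have eX : (kX : ℝ) / a ≤ ε / 4 := by
    have := small (z := kX) hε0 c1 hWa a0 (by simp)
    exact (le_abs_self _).trans (by simpa using this)
  have eY : (kY : ℝ) / h ≤ ε / 4 := by
    have := small (z := kY) hε0 c1 hWh hh0 (by simp)
    exact (le_abs_self _).trans (by simpa using this)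
  have e1 : (1 : ℝ) / a ≤ ε / 4 := by
    refine le_trans ?_ eX
    have : (1 : ℝ) ≤ kX := by exact_mod_cast k1
    gcongr
  have hAD : ball G o m ⊆ par G o X Y R (a + 1) h := by
    intro x hx
    have h2 := lip_ball_int lX hx
    have h3 := lip_ball_int lY hx
    rw [X0, sub_zero] at h2
    rw [Y0, sub_zero] at h3
    have h4 : m * kX ≤ a := (Nat.mul_le_mul_right _ (by omega)).trans hWa
    have h5 : m * kY ≤ h := (Nat.mul_le_mul_right _ (by omega)).trans hWh
    have h4' : (m : ℤ) * kX ≤ a := by exact_mod_cast h4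
    have h5' : (m : ℤ) * kY ≤ h := by exact_mod_cast h5
    refine mem_par.2 ⟨ball_mono o hmR hx, ?_, h3.trans h5'⟩
    push_cast; linarith
  have hpar : ∀ x ∈ par G o X Y R (a + 1) h,
      |(X x : ℝ) / a| ≤ 1 + ε / 4 ∧ |(Y x : ℝ) / h| ≤ 1 := by
    intro x hx
    obtain ⟨-, h2, h3⟩ := mem_par.1 hx
    have h2' : |(X x : ℝ)| ≤ a + 1 := by exact_mod_cast h2
    have h3' : |(Y x : ℝ)| ≤ h := by exact_mod_cast h3
    constructor
    · rw [abs_div, abs_of_pos a0']
      calc |(X x : ℝ)| / a ≤ (a + 1) / a := by gcongr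
        _ = 1 + 1 / a := by field_simp
        _ ≤ _ := by linarith
    · rw [abs_div, abs_of_pos hh0', div_le_one hh0']; exact h3'
  have key : ∀ u, ∃ (γ : G ≃g G) (α β : ℝ), |α| ≤ ε / 4 ∧ |β| ≤ ε / 4 ∧
      (∀ n, ∀ x ∈ ball G o n, γ x ∈ ball G u (n + ρ)) ∧
      (∀ x, (X (γ x) : ℝ) / a - X u / a = α + X x / a) ∧
      (∀ x, (Y (γ x) : ℝ) / h - Y u / h = β + Y x / h) := by
    intro u
    obtain ⟨γ, hu, hγ⟩ := hnet u
    have hu' := ball_symm hu
    refine ⟨γ, ((X (γ o) - X u : ℤ) : ℝ) / a, ((Y (γ o) - Y u : ℤ) : ℝ) / h,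
      small hε0 cρ hWa a0 (lip_ball_int lX hu'), small hε0 cρ hWh hh0 (lip_ball_int lY hu'),
      fun n x hx => ?_, fun x => ?_, fun x => ?_⟩
    · rw [add_comm]; exact ball_trans hu' (ball_aut γ hx)
    · rw [(hγ x).1]; push_cast; ring
    · rw [(hγ x).2]; push_cast; ring
  refine ⟨fun v => (X v : ℝ) / a, fun v => (Y v : ℝ) / h, (t : ℝ) / h, R + ρ, hτ, by simp [X0],
    by simp [Y0], by omega, fun u v huv => ?_, fun u v huv => ?_, fun u s hs => ?_,
    fun u s hs => ?_⟩
  · have := small hε0 c1 hWa a0 (z := X u - X v) (by simpa using lX u v huv)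
    push_cast at this
    rw [sub_div] at this
    linarith
  · have := small hε0 c1 hWh hh0 (z := Y u - Y v) (by simpa using lY u v huv)
    push_cast at this
    rw [sub_div] at this
    linarith
  · obtain ⟨γ, α, β, hα, hβ, hb, hx, hy⟩ := key u
    obtain ⟨s', hs', rfl⟩ : ∃ s' : ℤ, (s' = 1 ∨ s' = -1) ∧ s = s' := by
      rcases hs with rfl | rfl
      · exact ⟨1, Or.inl rfl, by simp⟩
      · exact ⟨-1, Or.inr rfl, by simp⟩
    have hg : ∀ x, ((Y (γ x) : ℝ) / h - t / h * (X (γ x) / a)) - (Y u / h - t / h * (X u / a)) =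
        β + Y x / h - t / h * (α + X x / a) := by
      intro x; rw [← hx x, ← hy x]; ring
    refine (miss_aut h0 h1 γ (fun x hx' => ?_) (fun x hx' => hb m x hx') hAD
      (fun b hb1 hb2 => ?_)).trans (hmv s' hs').2
    · obtain ⟨h2, h3⟩ := hpar x hx'
      refine mem_reg.2 ⟨hb R x (mem_par.1 hx').1, ?_, ?_⟩
      · rw [hx x]
        have := abs_add_le α ((X x : ℝ) / a)
        linarith
      · rw [hg x]
        have h4 : |α + (X x : ℝ) / a| ≤ 1 + ε / 2 := by
          have := abs_add_le α ((X x : ℝ) / a)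
          linarith
        have h5 := abs_le.1 (abs_tau hτ h4)
        have h6 := abs_le.1 hβ
        have h7 := abs_le.1 h3
        rw [abs_le]; constructor <;> linarith
    · obtain ⟨h2, h3⟩ := hpar b hb2
      obtain ⟨h4, h5⟩ := hb1
      have h4' : (a : ℝ) < X b + kX := by exact_mod_cast h4
      have h5' : (0 : ℝ) ≤ s' * (Y b - t) := by exact_mod_cast h5
      have h6 : 1 - ε / 4 ≤ (X b : ℝ) / a := by
        have : (1 : ℝ) ≤ (X b + kX) / a := by rw [le_div_iff₀ a0']; linarith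
        rw [add_div] at this; linarith
      have h7 : (0 : ℝ) ≤ s' * (Y b / h - t / h) := by
        rw [← sub_div, ← mul_div_assoc]; positivity
      have h8 := abs_le.1 h2
      have h9 := abs_le.1 h3
      have h10 := abs_le.1 hα
      have h11 := abs_le.1 hβ
      have h12 := abs_le.1 hτ
      have h13 : |α + (X b : ℝ) / a - 1| ≤ ε / 2 := by rw [abs_le]; constructor <;> linarith
      have h14 := abs_le.1 (abs_tau hτ h13)
      simp only [Set.mem_setOf_eq]
      rw [hx b, hg b]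
      have h15 : β + (Y b : ℝ) / h - t / h * (α + X b / a) =
          (Y b / h - t / h) + (β - t / h * (α + X b / a - 1)) := by ring
      rw [h15]
      refine ⟨by linarith, by linarith, ?_, ?_⟩
      · rcases hs' with rfl | rfl <;> push_cast at h7 ⊢ <;> linarith
      · rcases hs' with rfl | rfl <;> push_cast at h7 ⊢ <;> linarith
  · obtain ⟨γ, α, β, hα, hβ, hb, hx, hy⟩ := key u
    obtain ⟨s', hs', rfl⟩ : ∃ s' : ℤ, (s' = 1 ∨ s' = -1) ∧ s = s' := by
      rcases hs with rfl | rfl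
      · exact ⟨1, Or.inl rfl, by simp⟩
      · exact ⟨-1, Or.inr rfl, by simp⟩
    refine (miss_aut h0 h1 γ (fun x hx' => ?_) (fun x hx' => hb m x hx') hAD
      (fun b hb1 hb2 => ?_)).trans (hmv s' hs').1
    · obtain ⟨h2, h3⟩ := hpar x hx'
      refine mem_reg.2 ⟨hb R x (mem_par.1 hx').1, ?_, ?_⟩
      · rw [hy x]
        have := abs_add_le β ((Y x : ℝ) / h)
        linarith
      · rw [hx x]
        have := abs_add_le α ((X x : ℝ) / a)
        linarith
    · obtain ⟨h2, h3⟩ := hpar b hb2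
      obtain ⟨h4, h5⟩ := hb1
      have h4' : (h : ℝ) < Y b + kY := by exact_mod_cast h4
      have h5' : -(kX : ℝ) ≤ s' * X b := by exact_mod_cast h5
      have h6 : 1 - ε / 4 ≤ (Y b : ℝ) / h := by
        have : (1 : ℝ) ≤ (Y b + kY) / h := by rw [le_div_iff₀ hh0']; linarith
        rw [add_div] at this; linarith
      have h7 : -(ε / 4) ≤ s' * ((X b : ℝ) / a) := by
        have : -(kX : ℝ) / a ≤ s' * X b / a := by gcongr
        rw [neg_div, mul_div_assoc] at this
        linarith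
      have h8 := abs_le.1 h2
      have h9 := abs_le.1 h3
      have h10 := abs_le.1 hα
      have h11 := abs_le.1 hβ
      simp only [Set.mem_setOf_eq]
      rw [hx b, hy b]
      refine ⟨by linarith, by linarith, ?_, ?_⟩
      · rcases hs' with rfl | rfl <;> push_cast at h7 ⊢ <;> linarith
      · rcases hs' with rfl | rfl <;> push_cast at h7 ⊢ <;> linarith

end Vale.Agent.P151G
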