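import Vale.Agent.P151G.Base

/-! Job GeoEx: equivariant coordinates. -/

namespace Vale.Agent.P151G

open Finset Vale.Agent.P151

variable {V : Type*} [DecidableEq V] {G : SimpleGraph V} [G.LocallyFinite]

namespace GeoEx

lemma unif {α : Type*} (S : Finset α) (B : ℕ → α → Prop) (hm : ∀ n k a, n ≤ k → B n a → B k a)
    (h : ∀ a ∈ S, ∃ n, B n a) : ∃ n, ∀ a ∈ S, B n a := by
  classical
  choose! f hf using h
  exact ⟨S.sup f, fun a ha => hm _ _ a (le_sup ha) (hf a ha)⟩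

omit [DecidableEq V] [G.LocallyFinite] in
lemma transport (Γ : Subgroup (G ≃g G)) (hq : ∃ F : Finset V, ∀ v, ∃ γ ∈ Γ, ∃ u ∈ F, γ u = v)
    (B : ℕ → V → Prop) (hm : ∀ n k a, n ≤ k → B n a → B k a) (h : ∀ a, ∃ n, B n a)
    (hi : ∀ n (γ : Γ) a, B n a → B n ((γ : G ≃g G) a)) : ∃ n, ∀ a, B n a := by
  obtain ⟨F, hF⟩ := hq
  obtain ⟨n, hn⟩ := unif F B hm fun a _ => h a
  refine ⟨n, fun a => ?_⟩
  obtain ⟨γ, hγ, u, hu, rfl⟩ := hF a
  exact hi n ⟨γ, hγ⟩ u (hn u hu)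

omit [DecidableEq V] [G.LocallyFinite] in
lemma exists_pi (Γ : Subgroup (G ≃g G)) (φ : Γ →* Multiplicative (ℤ × ℤ))
    (hs : ∀ (γ : Γ) (v : V), (γ : G ≃g G) v = v → φ γ = 1) :
    ∃ π : V → ℤ × ℤ, ∀ (γ : Γ) v, π ((γ : G ≃g G) v) = Multiplicative.toAdd (φ γ) + π v := by
  classical
  have h0 : ∀ v : V, ∃ w, ∃ γ : Γ, (γ : G ≃g G) w = v := fun v => ⟨v, 1, rfl⟩
  have hex : ∃ rep : V → V, (∀ v, ∃ γ : Γ, (γ : G ≃g G) (rep v) = v) ∧
      ∀ (γ : Γ) v, rep ((γ : G ≃g G) v) = rep v := by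
    have key : ∀ (S : Set V) (hS : S.Nonempty) (S' : Set V) (hS' : S'.Nonempty), S = S' →
        hS.some = hS'.some := by
      rintro S hS S' hS' rfl
      rfl
    refine ⟨fun v => Set.Nonempty.some (s := {w | ∃ γ : Γ, (γ : G ≃g G) w = v}) (h0 v),
      fun v => Set.Nonempty.some_mem (s := {w | ∃ γ : Γ, (γ : G ≃g G) w = v}) (h0 v),
      fun γ v => key _ _ _ _ ?_⟩
    ext w
    constructor
    · rintro ⟨δ, hδ⟩
      refine ⟨γ⁻¹ * δ, ?_⟩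
      simp only [Subgroup.coe_mul, Subgroup.coe_inv, RelIso.mul_apply, hδ, RelIso.inv_apply_self]
    · rintro ⟨δ, hδ⟩
      refine ⟨γ * δ, ?_⟩
      simp only [Subgroup.coe_mul, RelIso.mul_apply, hδ]
  obtain ⟨rep, h1, h2⟩ := hex
  choose g hg using h1
  refine ⟨fun v => Multiplicative.toAdd (φ (g v)), fun γ v => ?_⟩
  have h3 : φ ((g ((γ : G ≃g G) v))⁻¹ * (γ * g v)) = 1 := by
    refine hs _ (rep v) ?_
    have h4 := hg ((γ : G ≃g G) v)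
    rw [h2] at h4
    simp only [Subgroup.coe_mul, Subgroup.coe_inv, RelIso.mul_apply, hg]
    nth_rewrite 2 [← h4]
    exact RelIso.inv_apply_self _ _
  rw [map_mul, map_inv, inv_mul_eq_one, map_mul] at h3
  simp only [h3, toAdd_mul]

end GeoEx

theorem geo_exists (hc : G.Connected) (Γ : Subgroup (G ≃g G))
    (hq : ∃ F : Finset V, ∀ v, ∃ γ ∈ Γ, ∃ u ∈ F, γ u = v)
    (φ : Γ →* Multiplicative (ℤ × ℤ)) (hφ : Function.Surjective φ)
    (hs : ∀ (γ : Γ) (v : V), (γ : G ≃g G) v = v → φ γ = 1) (o : V) : Nonempty (Geo G o) := by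
  obtain ⟨π, hπ⟩ := GeoEx.exists_pi Γ φ hs
  have h1 : ∀ (γ : Γ) v, (π ((γ : G ≃g G) v)).1 = (Multiplicative.toAdd (φ γ)).1 + (π v).1 :=
    fun γ v => by rw [hπ, Prod.fst_add]
  have h2 : ∀ (γ : Γ) v, (π ((γ : G ≃g G) v)).2 = (Multiplicative.toAdd (φ γ)).2 + (π v).2 :=
    fun γ v => by rw [hπ, Prod.snd_add]
  obtain ⟨Δ, hΔ⟩ := GeoEx.transport Γ hq (fun n v => G.degree v ≤ n)
    (fun n k a h h' => h'.trans h) (fun a => ⟨_, le_rfl⟩) (fun n γ a h => by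
      rw [← SimpleGraph.card_neighborSet_eq_degree] at h ⊢
      rwa [← Fintype.card_congr ((γ : G ≃g G).mapNeighborSet a)])
  obtain ⟨κ, hκ⟩ := GeoEx.transport Γ hq
    (fun n u => ∀ v, G.Adj u v → |(π u).1 - (π v).1| ≤ n ∧ |(π u).2 - (π v).2| ≤ n)
    (fun n k a h h' v hv => by
      have : (n : ℤ) ≤ k := by exact_mod_cast h
      exact ⟨(h' v hv).1.trans this, (h' v hv).2.trans this⟩)
    (fun a => by
      obtain ⟨n, hn⟩ := GeoEx.unif (G.neighborFinset a)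
        (fun n v => |(π a).1 - (π v).1| ≤ n ∧ |(π a).2 - (π v).2| ≤ n)
        (fun n k v h h' => by
          have : (n : ℤ) ≤ k := by exact_mod_cast h
          exact ⟨h'.1.trans this, h'.2.trans this⟩)
        (fun v _ => ⟨((π a).1 - (π v).1).natAbs + ((π a).2 - (π v).2).natAbs, by
          push_cast
          constructor
          · linarith [abs_nonneg ((π a).2 - (π v).2)]
          · linarith [abs_nonneg ((π a).1 - (π v).1)]⟩)
      exact ⟨n, fun v hv => hn v (by simpa using hv)⟩)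
    (fun n γ a h v hv => by
      obtain ⟨w, rfl⟩ := (γ : G ≃g G).surjective v
      have := h w ((γ : G ≃g G).map_rel_iff.1 hv)
      rw [h1, h1, h2, h2, add_sub_add_left_eq_sub, add_sub_add_left_eq_sub]
      exact this)
  obtain ⟨ρ₁, hρ₁⟩ := GeoEx.transport Γ hq
    (fun n u => ∃ γ : Γ, u ∈ ball G ((γ : G ≃g G) o) n)
    (fun n k a h ⟨γ, h'⟩ => ⟨γ, ball_mono _ h h'⟩)
    (fun a => by
      obtain ⟨n, hn⟩ := exists_mem_ball hc o a
      exact ⟨n, 1, hn⟩)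
    (fun n γ a ⟨δ, h⟩ => ⟨γ * δ, ball_aut (γ : G ≃g G) h⟩)
  obtain ⟨ρ₂, hρ₂⟩ := GeoEx.transport Γ hq
    (fun n u => ∀ s t : ℤ, |s| ≤ 1 → |t| ≤ 1 →
      ∃ v ∈ ball G u n, (π v).1 = (π u).1 + s ∧ (π v).2 = (π u).2 + t)
    (fun n k a h h' s t a1 a2 => by
      obtain ⟨v, hv, hv'⟩ := h' s t a1 a2
      exact ⟨v, ball_mono _ h hv, hv'⟩)
    (fun a => by
      obtain ⟨n, hn⟩ := GeoEx.unif (Icc (-1 : ℤ) 1 ×ˢ Icc (-1 : ℤ) 1)
        (fun n z => ∃ v ∈ ball G a n, (π v).1 = (π a).1 + z.1 ∧ (π v).2 = (π a).2 + z.2)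
        (fun n k z h ⟨v, hv, hv'⟩ => ⟨v, ball_mono _ h hv, hv'⟩)
        (fun z _ => by
          obtain ⟨γ, hγ⟩ := hφ (Multiplicative.ofAdd z)
          obtain ⟨n, hn⟩ := exists_mem_ball hc a ((γ : G ≃g G) a)
          refine ⟨n, _, hn, ?_, ?_⟩
          · rw [h1, hγ, toAdd_ofAdd, add_comm]
          · rw [h2, hγ, toAdd_ofAdd, add_comm])
      exact ⟨n, fun s t a1 a2 => hn (s, t)
        (mem_product.2 ⟨mem_Icc.2 (abs_le.1 a1), mem_Icc.2 (abs_le.1 a2)⟩)⟩)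
    (fun n γ a h s t a1 a2 => by
      obtain ⟨v, hv, b1, b2⟩ := h s t a1 a2
      refine ⟨_, ball_aut (γ : G ≃g G) hv, ?_, ?_⟩
      · rw [h1, h1, b1, add_assoc]
      · rw [h2, h2, b2, add_assoc])
  refine ⟨⟨fun v => (π v).1 - (π o).1, fun v => (π v).2 - (π o).2, κ + 1, ρ₁ + ρ₂, Δ,
    by omega, sub_self _, sub_self _, hΔ, fun u v huv => ?_, fun u => ?_, fun u s t a1 a2 => ?_⟩⟩
  · obtain ⟨b1, b2⟩ := hκ u v huv
    simp only [sub_sub_sub_cancel_right]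
    push_cast
    constructor <;> linarith
  · obtain ⟨γ, hγ⟩ := hρ₁ u
    refine ⟨γ, ball_mono _ (Nat.le_add_right _ _) hγ, fun x => ?_⟩
    simp only [h1, h2]
    constructor <;> ring
  · obtain ⟨v, hv, b1, b2⟩ := hρ₂ u s t a1 a2
    refine ⟨v, ball_mono _ (Nat.le_add_left _ _) hv, ?_, ?_⟩
    · simp only [b1]; ring
    · simp only [b2]; ring

end Vale.Agent.P151G
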