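import Vale.Agent.P151G.MissB
import Vale.Agent.P151G.Dense

/-! Job Strip: crossing a strip, with a split point. -/

namespace Vale.Agent.P151G

open Finset Vale.Agent.P151

variable {V : Type*} [DecidableEq V] {G : SimpleGraph V} [G.LocallyFinite]

lemma Geo.steps {o : V} (g : Geo G o) (u : V) (s t : ℤ) (hs : |s| ≤ 1) (ht : |t| ≤ 1) (k : ℕ) :
    ∃ v ∈ ball G u (k * g.ρ), g.P v = g.P u + k * s ∧ g.Q v = g.Q u + k * t := by
  induction k with
  | zero => exact ⟨u, mem_ball_self _ _, by simp, by simp⟩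
  | succ k ih =>
    obtain ⟨v, hv, h1, h2⟩ := ih
    obtain ⟨w, hw, h3, h4⟩ := g.step v s t hs ht
    refine ⟨w, ?_, ?_, ?_⟩
    · rw [Nat.succ_mul]
      exact ball_trans hv hw
    · rw [h3, h1]; push_cast; ring
    · rw [h4, h2]; push_cast; ring

theorem strip {o : V} (g : Geo G o) {p : ℝ} (hp0 : 0 < p) (hp1 : p < 1) {m : ℕ} {c : ℝ}
    (hc0 : 0 < c) (hc1 : c < 1)
    (hm : ∀ n : ℕ, m ≤ n → miss G p (ball G o n) (ball G o m) (sph G o n) ≤ c ^ 4 / 2)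
    (h : ℕ) (hh : m * g.κ ≤ h) :
    ∃ R0 : ℕ, m ≤ R0 ∧ ∃ s x : ℤ, (s = 1 ∨ s = -1) ∧ ∀ R : ℕ, R0 ≤ R → ∀ s' : ℤ, s' = 1 ∨ s' = -1 →
      miss G p (par G o (fun _ => 0) (fun v => s * g.Q v) R 0 h) (ball G o m)
        {v | h < s * g.Q v + g.κ ∧ 0 ≤ s' * (g.P v - x)} ≤ c := by
  have hκ : (1 : ℤ) ≤ g.κ := by exact_mod_cast g.hκ
  obtain ⟨D0, hD0, hD⟩ := dense_estimate g.deg hp0 hp1 o m (h * g.ρ) (c := c ^ 4 / 2)
    (ε := c ^ 4 / 2) (by positivity) hm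
  have hdense : ∀ u, ∃ b ∈ ({v | h < g.Q v + g.κ} ∪ {v | h < -g.Q v + g.κ} : Set V),
      b ∈ ball G u (h * g.ρ) := by
    intro u
    rcases le_total 0 (g.Q u) with hu | hu
    · obtain ⟨v, hv, -, h2⟩ := g.steps u 0 1 (by simp) (by simp) h
      refine ⟨v, Or.inl ?_, hv⟩
      show (h : ℤ) < g.Q v + g.κ
      omega
    · obtain ⟨v, hv, -, h2⟩ := g.steps u 0 (-1) (by simp) (by simp) h
      refine ⟨v, Or.inr ?_, hv⟩
      show (h : ℤ) < -g.Q v + g.κ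
      omega
  have h1 := hD _ hdense D0 le_rfl
  have hQ : ∀ v ∈ ball G o m, |g.Q v| ≤ h := by
    intro v hv
    have h2 := lip_ball_int (f := g.Q) (k := g.κ) (fun u v huv => (g.lip u v huv).2) hv
    rw [g.Q0, sub_zero] at h2
    have h3 : (m : ℤ) * g.κ ≤ h := by exact_mod_cast hh
    exact h2.trans h3
  have hA : ball G o m ⊆ par G o (fun _ => 0) g.Q D0 0 h := fun v hv =>
    mem_par.2 ⟨ball_mono o hD0 hv, by simp, hQ v hv⟩
  have h2 : miss G p (par G o (fun _ => 0) g.Q D0 0 h) (ball G o m)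
      ({v | h < g.Q v + g.κ} ∪ {v | h < -g.Q v + g.κ}) ≤ (c ^ 2) ^ 2 := by
    refine (miss_exit hp0.le hp1.le (fun v hv => (mem_par.1 hv).1) hA (fun b hb _ => hb) ?_).trans
      (h1.trans (le_of_eq (by ring)))
    intro x hx y hy hy' hxy
    have h3 : ¬ |g.Q y| ≤ h := fun h3 => hy' (mem_par.2 ⟨hy, by simp, h3⟩)
    have h4 := abs_le.1 (g.lip x y hxy).2
    rw [abs_le] at h3
    by_cases h5 : 0 ≤ g.Q y
    · left
      show (h : ℤ) < g.Q x + g.κ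
      omega
    · right
      show (h : ℤ) < -g.Q x + g.κ
      omega
  have h3 : ∃ s : ℤ, (s = 1 ∨ s = -1) ∧ miss G p (par G o (fun _ => 0) g.Q D0 0 h) (ball G o m)
      {v | h < s * g.Q v + g.κ} ≤ c ^ 2 := by
    rcases miss_or hp0.le hp1.le (by positivity) h2 with h3 | h3
    · exact ⟨1, Or.inl rfl, by simpa only [one_mul] using h3⟩
    · exact ⟨-1, Or.inr rfl, by simpa only [neg_one_mul] using h3⟩
  obtain ⟨s, hs, h3⟩ := h3
  have hP : ∀ b ∈ par G o (fun _ => 0) g.Q D0 0 h,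
      -((D0 : ℤ) * g.κ) ≤ g.P b ∧ g.P b ≤ (D0 : ℤ) * g.κ := by
    intro b hb
    have h4 := lip_ball_int (f := g.P) (k := g.κ) (fun u v huv => (g.lip u v huv).1)
      (mem_par.1 hb).1
    rw [g.P0, sub_zero] at h4
    exact abs_le.1 h4
  have hlh : -((D0 : ℤ) * g.κ) ≤ (D0 : ℤ) * g.κ := by
    have : (0 : ℤ) ≤ (D0 : ℤ) * g.κ := by positivity
    linarith
  obtain ⟨x, -, -, h4, h5⟩ := miss_split hp0.le hp1.le hc0 hc1 hA g.P hlh hP h3
  refine ⟨D0, hD0, s, x, hs, fun R hR s' hs' => ?_⟩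
  have hsub : par G o (fun _ => 0) g.Q D0 0 h ⊆ par G o (fun _ => 0) (fun v => s * g.Q v) R 0 h := by
    intro v hv
    obtain ⟨h6, h7, h8⟩ := mem_par.1 hv
    refine mem_par.2 ⟨ball_mono o hR h6, h7, ?_⟩
    rcases hs with rfl | rfl
    · simpa using h8
    · simpa using h8
  rcases hs' with rfl | rfl
  · refine (miss_mono hp0.le hp1.le hsub Subset.rfl hA ?_).trans h5
    rintro b ⟨hb1, hb2⟩ -
    exact ⟨hb1, by linarith⟩
  · refine (miss_mono hp0.le hp1.le hsub Subset.rfl hA ?_).trans h4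
    rintro b ⟨hb1, hb2⟩ -
    exact ⟨hb1, by linarith⟩

end Vale.Agent.P151G
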