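import Vale.Agent.P151G.Seed
import Vale.Agent.P151G.Strip
import Vale.Agent.P151G.Balance

/-! Job Ifr: the four moves. -/

namespace Vale.Agent.P151G

open Finset Vale.Agent.P151

variable {V : Type*} [DecidableEq V] {G : SimpleGraph V} [G.LocallyFinite]

namespace Ifr

lemma par_sign (o : V) (X Y : V → ℤ) (R a h : ℕ) {s : ℤ} (hs : s = 1 ∨ s = -1) :
    par G o (fun v => s * X v) Y R a h = par G o X Y R a h := by
  ext v
  rw [mem_par, mem_par]
  rcases hs with rfl | rfl <;> simp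

lemma par_mono (o : V) (X Y : V → ℤ) (R h : ℕ) {a a' : ℕ} (ha : a ≤ a') :
    par G o X Y R a h ⊆ par G o X Y R a' h := by
  intro v hv
  rw [mem_par] at hv ⊢
  have : (a : ℤ) ≤ a' := by exact_mod_cast ha
  exact ⟨hv.1, hv.2.1.trans this, hv.2.2⟩

/-- the last step: from the balanced parallelogram to the four moves -/
lemma finish {o : V} {p δ : ℝ} (h0 : 0 ≤ p) (h1 : p ≤ 1) (hδ0 : 0 < δ) (hδ1 : δ < 1)
    {m : ℕ} (X Y : V → ℤ) (a h kX kY R : ℕ) (hseed : ball G o m ⊆ par G o X Y R a h)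
    (hS : miss G p (par G o X Y R a h) (ball G o m) {v | a < X v + kX} ≤ δ ^ 2)
    (hT : ∀ s : ℤ, s = 1 ∨ s = -1 → miss G p (par G o X Y R (a + 1) h) (ball G o m)
      {v | h < Y v + kY ∧ -(kX : ℤ) ≤ s * X v} ≤ δ) :
    ∃ t : ℤ, |t| ≤ h ∧ ∀ s : ℤ, s = 1 ∨ s = -1 →
      miss G p (par G o X Y R (a + 1) h) (ball G o m)
        {v | h < Y v + kY ∧ -(kX : ℤ) ≤ s * X v} ≤ δ ∧
      miss G p (par G o X Y R (a + 1) h) (ball G o m)
        {v | a < X v + kX ∧ 0 ≤ s * (Y v - t)} ≤ δ := by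
  have hsub : par G o X Y R a h ⊆ par G o X Y R (a + 1) h := par_mono o X Y R h (Nat.le_succ a)
  have hS' : miss G p (par G o X Y R (a + 1) h) (ball G o m) {v | a < X v + kX} ≤ δ ^ 2 :=
    (miss_mono h0 h1 hsub Subset.rfl hseed (fun b hb _ => hb)).trans hS
  have hh : (0 : ℤ) ≤ h := by positivity
  obtain ⟨t, ht1, ht2, hA, hB⟩ := miss_split h0 h1 hδ0 hδ1 (hseed.trans hsub) Y
    (lo := -(h : ℤ)) (hi := h) (by linarith)
    (fun b hb => abs_le.1 (mem_par.1 hb).2.2) hS'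
  refine ⟨t, abs_le.2 ⟨ht1, ht2⟩, fun s hs => ⟨hT s hs, ?_⟩⟩
  rcases hs with rfl | rfl
  · refine (miss_mono h0 h1 Subset.rfl Subset.rfl (hseed.trans hsub) ?_).trans hB
    rintro b ⟨hb1, hb2⟩ -
    exact ⟨hb1, by linarith⟩
  · refine (miss_mono h0 h1 Subset.rfl Subset.rfl (hseed.trans hsub) ?_).trans hA
    rintro b ⟨hb1, hb2⟩ -
    exact ⟨hb1, by linarith⟩

lemma mul_sign_abs (x : ℤ) : x * x.sign = |x| := by
  rw [Int.mul_sign_self, Int.natCast_natAbs]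

end Ifr

open Ifr in
theorem ifr {o : V} (g : Geo G o) {p : ℝ} (hp0 : 0 < p) (hp1 : p < 1) (h : Perc G p o)
    {δ : ℝ} (hδ0 : 0 < δ) (hδ1 : δ < 1) : ∃ m : ℕ, ∀ W : ℕ, m ≤ W → IFr G o p δ m g.ρ W := by
  classical
  have h0 : 0 ≤ p := hp0.le
  have h1 : p ≤ 1 := hp1.le
  have hpow : ∀ {i j : ℕ}, i ≤ j → δ ^ j ≤ δ ^ i := fun hij =>
    pow_le_pow_of_le_one hδ0.le hδ1.le hij
  have hlt : ∀ i : ℕ, i ≠ 0 → δ ^ i < 1 := fun i hi => pow_lt_one₀ hδ0.le hδ1 hi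
  obtain ⟨m, hm⟩ := seed_estimate g hp0 h1 h (δ := δ ^ 32 / 2) (by positivity)
  refine ⟨m, fun W hW => ?_⟩
  obtain ⟨D0, hD0, hdense⟩ := dense_estimate g.deg hp0 hp1 o m (W * g.κ * g.ρ)
    (ε := δ ^ 32 / 2) (by positivity) hm
  obtain ⟨hh, hhdef⟩ : ∃ hh : ℕ, hh = g.κ * (D0 + W + m + 1) := ⟨_, rfl⟩
  have hκ := g.hκ
  have hmh : m * g.κ ≤ hh := by rw [hhdef]; nlinarith
  have hDh : D0 * g.κ ≤ hh := by rw [hhdef]; nlinarith
  have hWh : W * g.κ ≤ hh := by rw [hhdef]; nlinarith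
  have hh1 : 1 ≤ hh := by rw [hhdef]; nlinarith
  obtain ⟨R0, hR0, s, x, hs, hstrip⟩ := strip g hp0 hp1 (m := m) (c := δ ^ 8) (by positivity)
    (hlt 8 (by norm_num)) (fun n hn => (hm n hn).trans (le_of_eq (by ring))) hh hmh
  obtain ⟨Y, hY⟩ : ∃ Y : V → ℤ, Y = fun v => s * g.Q v := ⟨_, rfl⟩
  obtain ⟨X0, hX0⟩ : ∃ X0 : V → ℤ, X0 = fun v => (hh : ℤ) * g.P v - x * Y v := ⟨_, rfl⟩
  obtain ⟨kX, hkX⟩ : ∃ kX : ℕ, kX = g.κ * (hh + x.natAbs) := ⟨_, rfl⟩
  have hkXz : (kX : ℤ) = g.κ * (hh + |x|) := by rw [hkX]; push_cast; ring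
  have hkX1 : 1 ≤ kX := by rw [hkX]; nlinarith [Nat.zero_le x.natAbs]
  have hss : s * s = 1 := by rcases hs with rfl | rfl <;> norm_num
  have hsabs : |s| = 1 := by rcases hs with rfl | rfl <;> norm_num
  have hYv : ∀ v, Y v = s * g.Q v := fun v => by rw [hY]
  have hXv : ∀ v, X0 v = (hh : ℤ) * g.P v - x * Y v := fun v => by rw [hX0]
  have hYo : Y o = 0 := by rw [hYv, g.Q0, mul_zero]
  have hXo : X0 o = 0 := by rw [hXv, hYo, g.P0]; ring
  have hYl : ∀ u v, G.Adj u v → |Y u - Y v| ≤ g.κ := fun u v huv => by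
    rw [hYv, hYv, ← mul_sub, abs_mul, hsabs, one_mul]; exact (g.lip u v huv).2
  have hXl : ∀ u v, G.Adj u v → |X0 u - X0 v| ≤ kX := fun u v huv => by
    have e : X0 u - X0 v = (hh : ℤ) * (g.P u - g.P v) - x * (Y u - Y v) := by
      rw [hXv, hXv]; ring
    have a1 : |(hh : ℤ) * (g.P u - g.P v)| ≤ hh * g.κ := by
      rw [abs_mul, abs_of_nonneg (by positivity : (0 : ℤ) ≤ hh)]
      exact mul_le_mul_of_nonneg_left (g.lip u v huv).1 (by positivity)
    have a2 : |x * (Y u - Y v)| ≤ |x| * g.κ := by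
      rw [abs_mul]
      exact mul_le_mul_of_nonneg_left (hYl u v huv) (abs_nonneg _)
    rw [e, hkXz]
    have := abs_sub ((hh : ℤ) * (g.P u - g.P v)) (x * (Y u - Y v))
    linarith
  have hYb : ∀ {v : V} {n : ℕ}, v ∈ ball G o n → |Y v| ≤ n * g.κ := fun hv => by
    simpa [hYo] using lip_ball_int hYl hv
  have hXb : ∀ {v : V} {n : ℕ}, v ∈ ball G o n → |X0 v| ≤ n * kX := fun hv => by
    simpa [hXo] using lip_ball_int hXl hv
  have hmhz : (m : ℤ) * g.κ ≤ hh := by exact_mod_cast hmh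
  have hDhz : (D0 : ℤ) * g.κ ≤ hh := by exact_mod_cast hDh
  have hmW : (m : ℤ) * kX ≤ ((W * kX : ℕ) : ℤ) := by
    exact_mod_cast Nat.mul_le_mul_right kX hW
  have hmR : m ≤ R0 + D0 := by omega
  have hseed : ball G o m ⊆ par G o X0 Y (R0 + D0) (W * kX) hh := fun v hv =>
    mem_par.2 ⟨ball_mono o hmR hv, (hXb hv).trans hmW, (hYb hv).trans hmhz⟩
  have hseed0 : ball G o m ⊆ par G o (fun _ => 0) Y (R0 + D0) 0 hh := fun v hv =>
    mem_par.2 ⟨ball_mono o hmR hv, by simp, (hYb hv).trans hmhz⟩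
  -- the sides are dense
  have hside : ∀ u, ∃ b ∈ {v | ((W * kX : ℕ) : ℤ) < |X0 v| + kX},
      b ∈ ball G u (W * g.κ * g.ρ) := by
    intro u
    have hk1 : (1 : ℤ) ≤ kX := by exact_mod_cast hkX1
    have key : ∀ s0 : ℤ, s0 = 1 ∨ s0 = -1 → ∃ b ∈ ball G u (W * g.κ * g.ρ),
        X0 b = X0 u + s0 * ((W * kX : ℕ) : ℤ) := by
      intro s0 hs0
      have hs0a : |s0| = 1 := by rcases hs0 with rfl | rfl <;> norm_num
      have hsg : |x.sign| ≤ 1 := by
        rcases lt_trichotomy x 0 with hx | hx | hx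
        · rw [Int.sign_eq_neg_one_of_neg hx]; norm_num
        · rw [hx]; norm_num
        · rw [Int.sign_eq_one_of_pos hx]; norm_num
      obtain ⟨b, hb, hP, hQ⟩ := g.steps u s0 (-s0 * x.sign * s) hs0a.le
        (by rw [abs_mul, abs_mul, abs_neg, hs0a, hsabs]; simpa using hsg) (W * g.κ)
      refine ⟨b, hb, ?_⟩
      rw [hXv, hXv, hYv, hYv, hP, hQ]
      push_cast
      rw [hkXz, ← mul_sign_abs x]
      linear_combination (x * x.sign * s0 * W * g.κ) * hss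
    have hWk : (0 : ℤ) ≤ ((W * kX : ℕ) : ℤ) := by positivity
    rcases le_total 0 (X0 u) with hu | hu
    · obtain ⟨b, hb, e⟩ := key 1 (Or.inl rfl)
      refine ⟨b, ?_, hb⟩
      have := le_abs_self (X0 b)
      show ((W * kX : ℕ) : ℤ) < |X0 b| + kX
      linarith
    · obtain ⟨b, hb, e⟩ := key (-1) (Or.inr rfl)
      refine ⟨b, ?_, hb⟩
      have := neg_abs_le (X0 b)
      show ((W * kX : ℕ) : ℤ) < |X0 b| + kX
      linarith
  have hS : miss G p (par G o X0 Y (R0 + D0) (W * kX) hh) (ball G o m)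
      {v | ((W * kX : ℕ) : ℤ) < |X0 v| + kX} ≤ δ ^ 4 := by
    have e1 := hdense _ hside D0 le_rfl
    have hA : ball G o m ⊆ (ball G o D0).filter fun v => |X0 v| ≤ ((W * kX : ℕ) : ℤ) :=
      fun v hv => mem_filter.2 ⟨ball_mono o hD0 hv, (hXb hv).trans hmW⟩
    have e2 : miss G p ((ball G o D0).filter fun v => |X0 v| ≤ ((W * kX : ℕ) : ℤ)) (ball G o m)
        {v | ((W * kX : ℕ) : ℤ) < |X0 v| + kX} ≤ miss G p (ball G o D0) (ball G o m)
        {v | ((W * kX : ℕ) : ℤ) < |X0 v| + kX} := by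
      refine miss_exit h0 h1 (filter_subset _ _) hA (fun b hb _ => hb) ?_
      intro u _ y hy hy' huy
      have h2 : ¬ |X0 y| ≤ ((W * kX : ℕ) : ℤ) := fun hc => hy' (mem_filter.2 ⟨hy, hc⟩)
      have h3 := hXl y u huy.symm
      have h4 := abs_sub_abs_le_abs_sub (X0 y) (X0 u)
      show ((W * kX : ℕ) : ℤ) < |X0 u| + kX
      push Not at h2
      linarith
    have e3 : miss G p (par G o X0 Y (R0 + D0) (W * kX) hh) (ball G o m)
        {v | ((W * kX : ℕ) : ℤ) < |X0 v| + kX} ≤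
        miss G p ((ball G o D0).filter fun v => |X0 v| ≤ ((W * kX : ℕ) : ℤ)) (ball G o m)
        {v | ((W * kX : ℕ) : ℤ) < |X0 v| + kX} := by
      refine miss_mono h0 h1 ?_ Subset.rfl hA (fun b hb _ => hb)
      intro v hv
      obtain ⟨hv1, hv2⟩ := mem_filter.1 hv
      exact mem_par.2 ⟨ball_mono o (Nat.le_add_left _ _) hv1, hv2, (hYb hv1).trans hDhz⟩
    have e4 : δ ^ 32 ≤ δ ^ 4 := hpow (by norm_num)
    linarith
  -- the strip targets
  have hTs : ∀ s' : ℤ, s' = 1 ∨ s' = -1 →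
      miss G p (par G o (fun _ => 0) Y (R0 + D0) 0 hh) (ball G o m)
        {v | hh < Y v + g.κ ∧ -(kX : ℤ) ≤ s' * X0 v} ≤ (δ ^ 4) ^ 2 := by
    intro s' hs'
    have e1 := hstrip (R0 + D0) (Nat.le_add_right _ _) s' hs'
    rw [← hY] at e1
    refine (miss_mono h0 h1 Subset.rfl Subset.rfl hseed0 ?_).trans (e1.trans (le_of_eq (by ring)))
    rintro b ⟨hb1, hb2⟩ hb
    rw [← hYv] at hb1
    refine ⟨hb1, ?_⟩
    have hb3 := (abs_le.1 (mem_par.1 hb).2.2).2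
    have e : s' * X0 b = hh * (s' * (g.P b - x)) + s' * x * (hh - Y b) := by rw [hXv]; ring
    have a1 : (0 : ℤ) ≤ hh * (s' * (g.P b - x)) := mul_nonneg (by positivity) hb2
    have a2 : -|x| ≤ s' * x := by
      rcases hs' with rfl | rfl
      · simpa using neg_abs_le x
      · simpa using le_abs_self x
    have a3 : -|x| * (hh - Y b) ≤ s' * x * (hh - Y b) :=
      mul_le_mul_of_nonneg_right a2 (by linarith)
    have a4 : |x| * (hh - Y b) ≤ |x| * g.κ :=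
      mul_le_mul_of_nonneg_left (by linarith) (abs_nonneg _)
    have a5 : (0 : ℤ) ≤ g.κ * hh := by positivity
    show -(kX : ℤ) ≤ s' * X0 b
    rw [e, hkXz]
    nlinarith
  obtain ⟨a, ha, hSa, hT1, hT2⟩ := balance h0 h1 o X0 Y kX (R0 + D0) hh (W * kX) m hXl hseed
    (c := δ ^ 4) (by positivity) (hlt 4 (by norm_num)) _ _ (hTs 1 (Or.inl rfl))
    (hTs (-1) (Or.inr rfl)) hS
  have hseeda : ball G o m ⊆ par G o X0 Y (R0 + D0) a hh :=
    hseed.trans (par_mono o X0 Y _ _ ha)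
  have hor : ∃ s1 : ℤ, (s1 = 1 ∨ s1 = -1) ∧ miss G p (par G o X0 Y (R0 + D0) a hh) (ball G o m)
      {v | a < s1 * X0 v + kX} ≤ δ ^ 2 := by
    have e1 : miss G p (par G o X0 Y (R0 + D0) a hh) (ball G o m)
        ({v | a < 1 * X0 v + kX} ∪ {v | a < -1 * X0 v + kX}) ≤ (δ ^ 2) ^ 2 := by
      refine (miss_mono h0 h1 Subset.rfl Subset.rfl hseeda ?_).trans
        (hSa.trans (le_of_eq (by ring)))
      intro b hb _
      have hb' : (a : ℤ) < |X0 b| + kX := hb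
      rcases le_total 0 (X0 b) with h2 | h2
      · left
        rw [abs_of_nonneg h2] at hb'
        show (a : ℤ) < 1 * X0 b + kX
        linarith
      · right
        rw [abs_of_nonpos h2] at hb'
        show (a : ℤ) < -1 * X0 b + kX
        linarith
    rcases miss_or h0 h1 (by positivity) e1 with e2 | e2
    · exact ⟨1, Or.inl rfl, e2⟩
    · exact ⟨-1, Or.inr rfl, e2⟩
  obtain ⟨s1, hs1, hS1⟩ := hor
  have hs1a : |s1| = 1 := by rcases hs1 with rfl | rfl <;> norm_num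
  have e4 : δ ^ 4 ≤ δ := by simpa using hpow (i := 1) (j := 4) (by norm_num)
  obtain ⟨t, ht, hfin⟩ := finish (G := G) (o := o) h0 h1 hδ0 hδ1 (m := m) (fun v => s1 * X0 v) Y a hh kX g.κ
    (R0 + D0) (by rw [par_sign o X0 Y _ _ _ hs1]; exact hseeda)
    (by rw [par_sign o X0 Y _ _ _ hs1]; exact hS1) (by
      intro s2 hs2
      rw [par_sign o X0 Y _ _ _ hs1]
      rcases hs1 with rfl | rfl <;> rcases hs2 with rfl | rfl
      · simpa using hT1.trans e4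
      · simpa using hT2.trans e4
      · simpa using hT2.trans e4
      · simpa using hT1.trans e4)
  refine ⟨fun v => s1 * X0 v, Y, a, hh, kX, g.κ, R0 + D0, t, by simp [hXo], hYo, hkX1, hκ, ha,
    hWh, ht, hmR, fun u v huv => ⟨?_, hYl u v huv⟩, fun u => ?_, hfin⟩
  · rw [← mul_sub, abs_mul, hs1a, one_mul]; exact hXl u v huv
  · obtain ⟨γ, hγ, he⟩ := g.net u
    refine ⟨γ, hγ, fun z => ?_⟩
    obtain ⟨e1, e2⟩ := he z
    simp only [hXv, hYv]
    rw [e1, e2]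
    constructor <;> ring

end Vale.Agent.P151G
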