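import Vale.Agent.P151G.DChain

/-! Job MacroEx: the coarse lattice. -/

namespace Vale.Agent.P151G

open Finset Vale.Agent.P151

variable {V : Type*} [DecidableEq V] {G : SimpleGraph V} [G.LocallyFinite]

namespace MacroEx

/-- mean value over the two endpoints -/
noncomputable def avg (f : V → ℝ) : Sym2 V → ℝ :=
  Sym2.lift ⟨fun a b => (f a + f b) / 2, fun a b => by ring⟩

/-- first coordinate of a coarse site -/
def ca (y : ℕ × ℕ) : ℝ := 6 + 100 * (y.2 : ℝ) + 6 * ((y.1 : ℝ) - y.2)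

/-- second coordinate of a coarse site -/
def cb (y : ℕ × ℕ) : ℝ := 7 + 6 * (y.2 : ℝ) + 100 * ((y.1 : ℝ) - y.2)

/-- the cell of a coarse site -/
def cell (y : ℕ × ℕ) (X Y : ℝ) : Prop :=
  -4982 ≤ 100 * (X - ca y) - 6 * (Y - cb y) ∧ 100 * (X - ca y) - 6 * (Y - cb y) < 4982 ∧
    -4982 ≤ 100 * (Y - cb y) - 6 * (X - ca y) ∧ 100 * (Y - cb y) - 6 * (X - ca y) < 4982

lemma cell_unique {y z : ℕ × ℕ} {X Y : ℝ} (h : cell y X Y) (h' : cell z X Y) : y = z := by
  unfold cell ca cb at h h'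
  obtain ⟨a1, a2, a3, a4⟩ := h
  obtain ⟨b1, b2, b3, b4⟩ := h'
  have e2 : y.2 = z.2 := by
    have c1 : (y.2 : ℝ) < z.2 + 1 := by linarith
    have c2 : (z.2 : ℝ) < y.2 + 1 := by linarith
    have d1 : y.2 < z.2 + 1 := by exact_mod_cast c1
    have d2 : z.2 < y.2 + 1 := by exact_mod_cast c2
    omega
  have e2' : (y.2 : ℝ) = z.2 := by rw [e2]
  have e1 : y.1 = z.1 := by
    have c1 : (y.1 : ℝ) < z.1 + 1 := by linarith
    have c2 : (z.1 : ℝ) < y.1 + 1 := by linarith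
    have d1 : y.1 < z.1 + 1 := by exact_mod_cast c1
    have d2 : z.1 < y.1 + 1 := by exact_mod_cast c2
    omega
  exact Prod.ext e1 e2

lemma cell_near {y : ℕ × ℕ} {X Y : ℝ} (h1 : ca y - 40 ≤ X) (h2 : X ≤ ca y + 40)
    (h3 : cb y - 40 ≤ Y) (h4 : Y ≤ cb y + 40) : cell y X Y := by
  unfold cell
  refine ⟨?_, ?_, ?_, ?_⟩ <;> linarith

lemma cell_up {y z : ℕ × ℕ} {X Y : ℝ} (ea : ca z = ca y + 6) (eb : cb z = cb y + 100)
    (h1 : ca y - 20 ≤ X) (h2 : X ≤ ca y + 20) (h3 : cb y - 20 ≤ Y) (h4 : Y ≤ cb y + 120) :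
    cell y X Y ∨ cell z X Y := by
  unfold cell
  rw [ea, eb]
  by_cases h : 100 * (Y - cb y) - 6 * (X - ca y) < 4982
  · left
    refine ⟨?_, ?_, ?_, ?_⟩ <;> linarith
  · right
    refine ⟨?_, ?_, ?_, ?_⟩ <;> linarith

lemma cell_right {y z : ℕ × ℕ} {X Y : ℝ} (ea : ca z = ca y + 100) (eb : cb z = cb y + 6)
    (h1 : ca y - 20 ≤ X) (h2 : X ≤ ca y + 120) (h3 : cb y - 20 ≤ Y) (h4 : Y ≤ cb y + 20) :
    cell y X Y ∨ cell z X Y := by
  unfold cell
  rw [ea, eb]
  by_cases h : 100 * (X - ca y) - 6 * (Y - cb y) < 4982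
  · left
    refine ⟨?_, ?_, ?_, ?_⟩ <;> linarith
  · right
    refine ⟨?_, ?_, ?_, ?_⟩ <;> linarith

omit [DecidableEq V] in
lemma avg_bd {f : V → ℝ} {e : Sym2 V} {lo hi : ℝ} (h : ∀ v ∈ e, lo ≤ f v ∧ f v ≤ hi) :
    lo ≤ avg f e ∧ avg f e ≤ hi := by
  induction e using Sym2.ind with
  | _ a b =>
    have h1 := h a (Sym2.mem_mk_left a b)
    have h2 := h b (Sym2.mem_mk_right a b)
    change lo ≤ (f a + f b) / 2 ∧ (f a + f b) / 2 ≤ hi
    constructor <;> linarith [h1.1, h1.2, h2.1, h2.2]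

lemma avg_bx {o : V} {f g : V → ℝ} {lo hi c r : ℝ} {n : ℕ} {e : Sym2 V}
    (h : e ∈ eIn G (bx G o f g lo hi c r n)) :
    e ∈ eIn G (ball G o n) ∧ (lo ≤ avg f e ∧ avg f e ≤ hi) ∧ (c - r ≤ avg g e ∧ avg g e ≤ c + r) := by
  refine ⟨eIn_mono (fun v hv => (mem_bx.1 hv).1) h, avg_bd fun v hv => ?_, avg_bd fun v hv => ?_⟩
  · have := mem_bx.1 ((mem_eIn.1 h).1 v hv)
    exact ⟨this.2.1, this.2.2.1⟩
  · have := abs_le.1 (mem_bx.1 ((mem_eIn.1 h).1 v hv)).2.2.2
    constructor <;> linarith [this.1, this.2]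

open Classical in
/-- the edges of a cell -/
noncomputable def EE (G : SimpleGraph V) [G.LocallyFinite] (o : V) (ξ et : V → ℝ) (M n : ℕ)
    (y : ℕ × ℕ) : Finset (Sym2 V) :=
  (eIn G (ball G o n)).filter fun e => cell y (avg ξ e) (avg et e) ∧ e ∉ eIn G (ball G o M)

lemma mem_EE {o : V} {ξ et : V → ℝ} {M n : ℕ} {y : ℕ × ℕ} {e : Sym2 V} :
    e ∈ EE G o ξ et M n y ↔
      e ∈ eIn G (ball G o n) ∧ cell y (avg ξ e) (avg et e) ∧ e ∉ eIn G (ball G o M) := by
  classical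
  unfold EE
  rw [mem_filter]

lemma reg_ok {o : V} {ξ : V → ℝ} {M : ℕ} {p : ℝ} (h1 : p ≤ 1) {U : Finset (Sym2 V)}
    {w : Sym2 V → ℝ} (hs : ∀ e ∈ eIn G (ball G o M), e ∈ U ∧ w e = 1)
    (hsm : ∀ v ∈ ball G o M, ξ v < 1 / 2) {e : Sym2 V}
    (hc : e ∉ eIn G (ball G o M) → e ∈ U ∧ w e = p) :
    e ∈ U ∧ p ≤ w e ∧ ((∀ v ∈ e, 1 / 2 ≤ ξ v) → w e = p) := by
  by_cases he : e ∈ eIn G (ball G o M)
  · obtain ⟨a1, a2⟩ := hs e he
    refine ⟨a1, by rw [a2]; exact h1, fun hv => ?_⟩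
    induction e using Sym2.ind with
    | _ a b =>
      exact absurd (hv a (Sym2.mem_mk_left a b)) (not_le.2 (hsm a (mk_mem_eIn.1 he).1))
  · obtain ⟨a1, a2⟩ := hc he
    exact ⟨a1, a2.ge, fun _ => a2⟩

lemma et_bd {τ X Z a b r : ℝ} (hτ : |τ| ≤ 1) (h1 : a - r ≤ X) (h2 : X ≤ a + r)
    (h3 : |Z - (b + τ * a)| ≤ 1) : |Z - τ * X - b| ≤ 1 + r := by
  have e : Z - τ * X - b = (Z - (b + τ * a)) + τ * (a - X) := by ring
  have h4 : |τ * (a - X)| ≤ r := by
    rw [abs_mul]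
    have h5 : |a - X| ≤ r := abs_le.2 ⟨by linarith, by linarith⟩
    calc |τ| * |a - X| ≤ 1 * |a - X| := mul_le_mul_of_nonneg_right hτ (abs_nonneg _)
      _ ≤ r := by linarith
  rw [e]
  exact (abs_add_le _ _).trans (add_le_add h3 h4)

lemma ball_bd {o : V} {ξ ζ : V → ℝ} {τ ε : ℝ} (hτ : |τ| ≤ 1) (hξ0 : ξ o = 0) (hζ0 : ζ o = 0)
    (hξ : Lip G ξ ε) (hζ : Lip G ζ ε) (hε : 0 < ε) {n : ℕ} {v : V} (hv : v ∈ ball G o n) :
    |ξ v| ≤ n * ε ∧ |ζ v - τ * ξ v| ≤ 2 * (n * ε) := by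
  have a1 := hξ.ball hε.le hv
  have a2 := hζ.ball hε.le hv
  rw [hξ0, sub_zero] at a1
  rw [hζ0, sub_zero] at a2
  refine ⟨a1, ?_⟩
  have h4 : |τ * ξ v| ≤ n * ε := by
    rw [abs_mul]
    calc |τ| * |ξ v| ≤ 1 * |ξ v| := mul_le_mul_of_nonneg_right hτ (abs_nonneg _)
      _ ≤ n * ε := by linarith
  exact (abs_sub _ _).trans (by linarith)

end MacroEx

open MacroEx in
theorem macro_exists {o : V} {p γ δ ε η : ℝ} {M J : ℕ} (h0 : 0 ≤ p) (h1 : p ≤ 1)
    (hT : TargetProp G p γ δ M J) (hF : Frame G o p δ ε M) (hε : 0 < ε) (hδ : 0 ≤ δ)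
    (hJ : 1000 * (J + M + 2) * ε ≤ 1) (hη : δ + 240 * γ ≤ η) :
    Nonempty (Macro G o p η (240 * γ)) := by
  obtain ⟨ξ, ζ, τ, R, hτ, hξ0, hζ0, hMR, hξ, hζ, hM1, hM2⟩ := hF
  obtain ⟨L, hL⟩ : ∃ L : ℕ, L = 240 * (R + J + 1) := ⟨_, rfl⟩
  have hJ0 : (0 : ℝ) ≤ J := Nat.cast_nonneg J
  have hM0 : (0 : ℝ) ≤ M := Nat.cast_nonneg M
  have hε1 : ε ≤ 1 / 2000 := by nlinarith
  have hMε : (M : ℝ) * ε ≤ 1 / 1000 := by nlinarith
  have hb := fun (n : ℕ) (v : V) (hv : v ∈ ball G o n) => ball_bd hτ hξ0 hζ0 hξ hζ hε hv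
  have hsm : ∀ v ∈ ball G o M, ξ v < 1 / 2 := fun v hv => by
    linarith [(abs_le.1 (hb M v hv).1).2]
  have hdc := fun U w hw hU lo a b c R0 => dchain h0 h1 hT hτ hξ0 hMR hξ hζ hM1 hM2 hε hδ hJ
    U w hw hU lo a b c R0
  rw [← hL] at hdc
  refine ⟨{ seed := eIn G (ball G o M)
            E := fun y => EE G o ξ (fun v => ζ v - τ * ξ v) M (R + (y.1 + 2) * L) y
            M := fun y => bx G o ξ ζ (ca y - 3) (ca y + 3) (cb y + τ * ca y) 1 (R + (y.1 + 1) * L)
            seed_edge := fun e he => eIn_edge he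
            E_edge := fun y e he => eIn_edge (mem_EE.1 he).1
            disj := fun y z hyz => disjoint_left.2 fun e he he' =>
              hyz (cell_unique (mem_EE.1 he).2.1 (mem_EE.1 he').2.1)
            E_seed := fun y e he => (mem_EE.1 he).2.2
            child := ?_, root := ?_, farM := ?_, farE := ?_ }⟩
  · intro y z hy hz U w hw hU hs hE
    have hy' : (y.2 : ℝ) ≤ y.1 := by exact_mod_cast hy
    have hy0 : (0 : ℝ) ≤ y.2 := Nat.cast_nonneg _
    have ha6 : 6 ≤ ca y := by unfold ca; linarith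
    have hz1 : z.1 = y.1 + 1 := by rcases hz with h | h <;> rw [h]
    have hab : (ca z = ca y + 6 ∧ cb z = cb y + 100) ∨ (ca z = ca y + 100 ∧ cb z = cb y + 6) := by
      rcases hz with h | h
      · left
        rw [h]; unfold ca cb; push_cast; constructor <;> ring
      · right
        rw [h]; unfold ca cb; push_cast; constructor <;> ring
    have hR1 : R + (y.1 + 1) * L + L = R + (y.1 + 2) * L := by ring
    have hR2 : R + (z.1 + 1) * L = R + (y.1 + 1) * L + L := by rw [hz1]; ring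
    have hR3 : R + (y.1 + 1) * L + L ≤ R + (z.1 + 2) * L := by rw [hz1]; nlinarith
    have key := hdc U w hw hU (ca y - 3) (ca z) (cb z) (cb y) (R + (y.1 + 1) * L) (by linarith)
      (by rcases hab with h | h <;> linarith [h.1]) (by rcases hab with h | h <;> linarith [h.1])
      (by rcases hab with h | h <;> linarith [h.1]) (by rcases hab with h | h <;> linarith [h.2])
      (by rcases hab with h | h <;> linarith [h.2]) (fun e he => by
        refine reg_ok h1 hs hsm fun hn => hE e ?_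
        have hc : e ∈ eIn G (ball G o (R + (y.1 + 1) * L + L)) ∧
            (cell y (avg ξ e) (avg (fun v => ζ v - τ * ξ v) e) ∨
              cell z (avg ξ e) (avg (fun v => ζ v - τ * ξ v) e)) := by
          rcases he with he | he
          · obtain ⟨a1, ⟨a2, a3⟩, a4, a5⟩ := avg_bx he
            refine ⟨a1, ?_⟩
            rcases hab with ⟨ea, eb⟩ | ⟨ea, eb⟩
            · exact cell_up ea eb (by linarith) (by linarith) (by linarith) (by linarith)
            · exact cell_right ea eb (by linarith) (by linarith) (by linarith) (by linarith)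
          · obtain ⟨a1, ⟨a2, a3⟩, a4, a5⟩ := avg_bx he
            refine ⟨a1, ?_⟩
            rcases hab with ⟨ea, eb⟩ | ⟨ea, eb⟩
            · exact cell_up ea eb (by linarith) (by linarith) (by linarith) (by linarith)
            · exact cell_right ea eb (by linarith) (by linarith) (by linarith) (by linarith)
        rcases hc.2 with h | h
        · exact Or.inl (mem_EE.2 ⟨hR1 ▸ hc.1, h, hn⟩)
        · exact Or.inr (mem_EE.2 ⟨eIn_mono (ball_mono o hR3) hc.1, h, hn⟩))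
    refine le_trans (Pr_mono hw ?_) key
    rintro ω - ⟨⟨b, hb1, hb2⟩, hn⟩
    refine ⟨⟨b, ?_, hb2⟩, ?_⟩
    · obtain ⟨a1, a2, a3, a4⟩ := mem_bx.1 hb1
      refine mem_bx.2 ⟨a1, a2, ?_, ?_⟩
      · rcases hab with h | h <;> linarith [h.1]
      · exact (et_bd hτ a2 a3 a4).trans (by norm_num)
    · rw [← hR2]
      exact hn
  · intro U w hw hU hs hE
    have ea : ca (0, 0) = 6 := by unfold ca; norm_num
    have eb : cb (0, 0) = 7 := by unfold cb; norm_num
    have hin : ∀ e, e ∈ eIn G (ball G o (R + L)) → -20 ≤ avg ξ e → avg ξ e ≤ 20 →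
        -20 ≤ avg (fun v => ζ v - τ * ξ v) e → avg (fun v => ζ v - τ * ξ v) e ≤ 20 →
        e ∈ U ∧ p ≤ w e ∧ ((∀ v ∈ e, 1 / 2 ≤ ξ v) → w e = p) := by
      intro e a1 a2 a3 a4 a5
      refine reg_ok h1 hs hsm fun hn => hE e (mem_EE.2 ⟨eIn_mono (ball_mono o ?_) a1, ?_, hn⟩)
      · change R + L ≤ R + (0 + 2) * L
        omega
      · exact cell_near (by linarith) (by linarith) (by linarith) (by linarith)
    have key := hdc U w hw hU (3 / 4) 6 7 1 R le_rfl le_rfl (by norm_num) (by norm_num)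
      (by norm_num) (by norm_num) (fun e he => by
        rcases he with he | he
        · obtain ⟨a1, ⟨a2, a3⟩, a4, a5⟩ := avg_bx he
          exact hin e a1 (by linarith) (by linarith) (by linarith) (by linarith)
        · obtain ⟨a1, ⟨a2, a3⟩, a4, a5⟩ := avg_bx he
          exact hin e a1 (by linarith) (by linarith) (by linarith) (by linarith))
    have hAD : ball G o M ⊆ reg G ξ (fun v => ζ v - τ * ξ v) o R := by
      intro v hv
      obtain ⟨a1, a2⟩ := hb M v hv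
      refine mem_reg.2 ⟨ball_mono o hMR hv, ?_, ?_⟩
      · rw [hξ0, sub_zero]; linarith
      · beta_reduce
        rw [hξ0, hζ0, mul_zero, sub_zero, sub_zero]; linarith
    have k1 : miss G p (reg G ξ (fun v => ζ v - τ * ξ v) o R) (ball G o M)
        (bx G o ξ (fun v => ζ v - τ * ξ v) (3 / 4) 6 1 4 R : Set V) ≤ δ := by
      refine le_trans (miss_mono h0 h1 Subset.rfl Subset.rfl hAD ?_) (hM1 o 1 (Or.inl rfl))
      rintro b ⟨a1, a2, a3, a4⟩ hbD
      beta_reduce at a3 a4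
      rw [hξ0, sub_zero] at a1 a2
      rw [hξ0, hζ0, mul_zero, sub_zero, sub_zero, one_mul] at a3 a4
      refine mem_coe.2 (mem_bx.2 ⟨(mem_reg.1 hbD).1, by linarith, by linarith, ?_⟩)
      beta_reduce
      rw [abs_le]; constructor <;> linarith
    have k2 := (miss_bound h0 h1 (U := U) hw (fun e he => by
      have a1 : e ∈ eIn G (ball G o (R + L)) :=
        eIn_mono (fun v hv => ball_mono o (Nat.le_add_right R L) (mem_reg.1 hv).1) he
      have a2 := avg_bd (f := ξ) (e := e) (lo := -20) (hi := 20) fun v hv => by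
        have := abs_le.1 (mem_reg.1 ((mem_eIn.1 he).1 v hv)).2.1
        rw [hξ0, sub_zero] at this
        constructor <;> linarith [this.1, this.2]
      have a3 := avg_bd (f := fun v => ζ v - τ * ξ v) (e := e) (lo := -20) (hi := 20)
        fun v hv => by
          have := abs_le.1 (mem_reg.1 ((mem_eIn.1 he).1 v hv)).2.2
          beta_reduce at this ⊢
          rw [hξ0, hζ0, mul_zero, sub_zero, sub_zero] at this
          constructor <;> linarith [this.1, this.2]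
      have a4 := hin e a1 a2.1 a2.2 a3.1 a3.2
      exact ⟨a4.1, a4.2.1⟩)).trans k1
    refine le_trans (Pr_mono_ae hw ?_) ((Pr_or_le hw _ _).trans ((add_le_add k2 key).trans hη))
    intro ω _ hwt hn
    by_cases hx : ∃ v ∈ bx G o ξ (fun v => ζ v - τ * ξ v) (3 / 4) 6 1 4 R, Conn ω o v
    · refine Or.inr ⟨hx, ?_⟩
      have e1 : R + ((0 : ℕ) + 1) * L = R + L := by ring
      beta_reduce at hn
      rw [ea, eb, e1] at hn
      exact hn
    · refine Or.inl ?_
      rintro ⟨a, ha, b, hb1, hb2⟩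
      have hsub : eIn G (ball G o M) ⊆ ω := fun e he =>
        mem_of_wt_ne_zero hwt (hs e he).1 (hs e he).2
      exact hx ⟨b, mem_coe.1 hb1, (conn_ball hsub ha).trans hb2⟩
  · intro T x hx b hb1 hb2
    obtain ⟨-, a2, a3, a4⟩ := mem_bx.1 hb1
    have a5 := abs_le.1 (et_bd hτ a2 a3 a4)
    obtain ⟨c1, c2⟩ := hb T b hb2
    have c3 := abs_le.1 c1
    have c4 := abs_le.1 c2
    have hT0 : (0 : ℝ) ≤ T := Nat.cast_nonneg T
    have c5 : (T : ℝ) * ε ≤ T := by nlinarith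
    have e : ca (T + 1, x) + cb (T + 1, x) = 13 + 106 * ((T : ℝ) + 1) := by
      unfold ca cb; push_cast; ring
    linarith [a5.1, c3.2, c4.2]
  · intro T x hx e he b hb1 hb2
    obtain ⟨a1, ⟨a2, -, a3, -⟩, -⟩ := mem_EE.1 he
    have hall : ∀ v ∈ e, v ∈ ball G o (T + 1) := by
      have hadj := eIn_edge a1
      induction e using Sym2.ind with
      | _ u u' =>
        have hadj' : G.Adj u u' := hadj
        intro v hv
        rcases Sym2.mem_iff.1 hb1 with h | h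
        · rw [h] at hb2
          rcases Sym2.mem_iff.1 hv with h' | h'
          · rw [h']; exact ball_mono o (Nat.le_succ T) hb2
          · rw [h']; exact ball_adj hb2 hadj'
        · rw [h] at hb2
          rcases Sym2.mem_iff.1 hv with h' | h'
          · rw [h']; exact ball_adj hb2 hadj'.symm
          · rw [h']; exact ball_mono o (Nat.le_succ T) hb2
    have c1 := avg_bd (f := ξ) (e := e) fun v hv => abs_le.1 (hb (T + 1) v (hall v hv)).1
    have c2 := avg_bd (f := fun v => ζ v - τ * ξ v) (e := e)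
      fun v hv => abs_le.1 (hb (T + 1) v (hall v hv)).2
    have hT0 : (0 : ℝ) ≤ T := Nat.cast_nonneg T
    have c5 : ((T + 1 : ℕ) : ℝ) * ε ≤ (T + 1) / 2000 := by push_cast; nlinarith
    have e1 : ca (T + 1, x) + cb (T + 1, x) = 13 + 106 * ((T : ℝ) + 1) := by
      unfold ca cb; push_cast; ring
    linarith [c1.2, c2.2]

end Vale.Agent.P151G
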