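import Vale.Agent.P151G.Ifr
import Vale.Agent.P151G.FrameOf
import Vale.Agent.P151G.MacroEx
import Vale.Agent.P151G.Coarse
import Vale.Agent.P151G.Bridge
import Vale.Agent.P151G.GeoEx

/-! Choice of the parameters. -/

namespace Vale.Agent.P151G

open Finset Vale.Agent.P151

variable {V : Type*} [DecidableEq V] {G : SimpleGraph V} [G.LocallyFinite]

open unitInterval

lemma TargetProp.mono {p γ δ δ' : ℝ} {m J : ℕ} (h : TargetProp G p γ δ m J) (hδ : δ' ≤ δ) :
    TargetProp G p γ δ' m J :=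
  fun U w B T o h1 h2 h3 h4 h5 => h U w B T o h1 h2 h3 h4 fun v hv => (h5 v hv).trans hδ

theorem perc_step {o : V} (g : Geo G o) {p : ℝ} (hp0 : 0 < p) (hp1 : p < 1) (h : Perc G p o) :
    ∃ p' : ℝ, 0 ≤ p' ∧ p' < p ∧ Perc G p' o := by
  set η : ℝ := 1 / (2 * 10 ^ 6) with hη
  set γ : ℝ := η ^ 2 / 480 with hγ
  obtain ⟨δ, δ0, hδ⟩ := target g.deg (min (p / 2) (1 - p)) γ (lt_min (by linarith) (by linarith))
    (by positivity)
  have d0 : 0 < min δ (η / 2) / 2 := by
    have : 0 < min δ (η / 2) := lt_min δ0 (by positivity)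
    linarith
  have d1 : min δ (η / 2) ≤ η / 2 := min_le_right _ _
  have e1 : η / 2 < 1 := by norm_num [hη]
  obtain ⟨m, hm⟩ := ifr g hp0 hp1 h d0 (by linarith)
  obtain ⟨J, hJ⟩ := hδ (m + g.ρ)
  obtain ⟨K, hK⟩ : ∃ K : ℕ, K = 1000 * (J + (m + g.ρ) + 2) := ⟨_, rfl⟩
  have K00 : 1 ≤ K := by omega
  have K0 : (2000 : ℝ) ≤ K := by exact_mod_cast (by omega : 2000 ≤ K)
  have K2 : (K : ℝ) = 1000 * (J + ((m + g.ρ : ℕ) : ℝ) + 2) := by rw [hK]; push_cast; ring
  clear hK
  obtain ⟨p', h1, h2, hI⟩ := ifr_cont hp0 d0 (hm (4 * (m + g.ρ + 2) * K)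
    (le_trans (by omega) (Nat.le_mul_of_pos_right _ K00)))
  have q0 : 0 < p' := by linarith
  have q1 : p' ≤ 1 := by linarith
  have hF := frame_of_ifr (ε := 1 / K) q0.le q1 hI (by positivity)
    (by rw [div_le_div_iff₀ (by linarith) (by norm_num)]; linarith)
    (by
      have K1 : (K : ℝ) ≠ 0 := by linarith
      rw [Nat.cast_mul, mul_comm _ (K : ℝ), ← mul_assoc, one_div_mul_cancel K1, one_mul]
      push_cast; exact le_rfl)
  have hT := (hJ p' ((min_le_left _ _).trans h1)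
    (by linarith [min_le_right (p / 2) (1 - p)])).mono
    (show 2 * (min δ (η / 2) / 2) ≤ δ by linarith [min_le_left δ (η / 2)])
  have e : 240 * γ = η ^ 2 / 2 := by rw [hγ]; ring
  obtain ⟨s⟩ := macro_exists (η := η) q0.le q1 hT hF (by positivity) (by linarith)
    (by rw [← K2, mul_one_div_cancel (by linarith)])
    (by
      rw [e]
      have : η ^ 2 / 2 ≤ η / 2 := by norm_num [hη]
      linarith)
  refine ⟨p', q0.le, h2, s.perc q0 q1 (by positivity) (by norm_num [hη]) ?_⟩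
  rw [e]; norm_num [hη]

theorem no_critical (hc : G.Connected) (hg : ∀ o, Nonempty (Geo G o)) (h1 : pc G < 1) :
    percMeasure G (pc G) (infEvent V) = 0 := by
  by_contra hne
  have hpos : 0 < percMeasure G (pc G) (infEvent V) := pos_iff_ne_zero.2 hne
  have h0 : pc G ≠ 0 := fun h => hne (by rw [h]; exact percMeasure_zero hc)
  have h0' : (0 : ℝ) < pc G := lt_of_le_of_ne (pc G).2.1 (fun h => h0 (Subtype.ext h.symm))
  have h1' : ((pc G : I) : ℝ) < 1 := by exact_mod_cast h1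
  obtain ⟨o, ho⟩ := perc_of_measure_pos hc _ hpos
  obtain ⟨g⟩ := hg o
  obtain ⟨p', hp0, hp1, hp⟩ := perc_step g h0' h1' ho
  have hm := measure_pos_of_perc ⟨p', hp0, (hp1.trans h1').le⟩ o hp
  have : pc G ≤ ⟨p', hp0, (hp1.trans h1').le⟩ := sInf_le hm
  exact absurd (show ((pc G : I) : ℝ) ≤ p' from this) (not_le.2 hp1)

end Vale.Agent.P151G
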