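import Vale.Agent.P151G.Base

/-! Job Miss: monotonicity of `miss`. -/

namespace Vale.Agent.P151G

open Finset Vale.Agent.P151

variable {V : Type*} [DecidableEq V] {G : SimpleGraph V} [G.LocallyFinite]

namespace Miss

omit [DecidableEq V] [G.LocallyFinite] in
lemma conn_mem {ω : Finset (Sym2 V)} {D : Finset V} (hω : ω ⊆ eIn G D) {a b : V} (ha : a ∈ D)
    (hc : Conn ω a b) : b ∈ D :=
  Conn.induction (P := fun y => y ∈ D) ha (fun _ _ _ _ h _ => (mk_mem_eIn.1 (hω h)).2.1) hc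

omit [G.LocallyFinite] in
lemma miss_univ (p : ℝ) {D D' : Finset V} (hD : D ⊆ D') (A : Finset V) (T : Set V) :
    miss G p D A T = Pr (eIn G D') (fun _ => p)
      (fun ω => ¬ ∃ a ∈ A, ∃ b ∈ T, Conn (ω ∩ eIn G D) a b) :=
  (Ex_universe (eIn_mono hD) _).symm

end Miss

lemma miss_nonneg {p : ℝ} (h0 : 0 ≤ p) (h1 : p ≤ 1) (D A : Finset V) (T : Set V) :
    0 ≤ miss G p D A T := Pr_nonneg (valid_const h0 h1) _

lemma miss_bound {p : ℝ} (h0 : 0 ≤ p) (h1 : p ≤ 1) {U : Finset (Sym2 V)} {w : Sym2 V → ℝ}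
    (hw : Valid w) {D A : Finset V} {T : Set V} (hU : ∀ e ∈ eIn G D, e ∈ U ∧ p ≤ w e) :
    Pr U w (fun ω => ¬ ∃ a ∈ A, ∃ b ∈ T, Conn ω a b) ≤ miss G p D A T := by
  have hv : Valid (fun _ : Sym2 V => p) := valid_const h0 h1
  have h2 : Pr U w (fun ω => ¬ ∃ a ∈ A, ∃ b ∈ T, Conn ω a b) ≤
      Pr U (restr (fun _ => p) (eIn G D)) (fun ω => ¬ ∃ a ∈ A, ∃ b ∈ T, Conn ω a b) := by
    refine Ex_anti_w (hv.restr _) hw ?_ ?_
    · intro e _
      unfold restr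
      split_ifs with h
      · exact (hU e h).2
      · exact (hw e).1
    · intro ω ω' h
      exact ind_mono fun hn ⟨a, ha, b, hb, hc⟩ => hn ⟨a, ha, b, hb, hc.mono h⟩
  refine h2.trans ?_
  unfold miss Pr
  rw [Ex_restr, Ex_universe (fun e he => (hU e he).1)
    (fun ω => ind (¬ ∃ a ∈ A, ∃ b ∈ T, Conn ω a b))]

lemma miss_exit {p : ℝ} (h0 : 0 ≤ p) (h1 : p ≤ 1) {D D' A : Finset V} {T T' : Set V}
    (hD : D' ⊆ D) (hA : A ⊆ D') (hT : ∀ b ∈ T, b ∈ D' → b ∈ T')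
    (hS : ∀ x ∈ D', ∀ y ∈ D, y ∉ D' → G.Adj x y → x ∈ T') :
    miss G p D' A T' ≤ miss G p D A T := by
  rw [Miss.miss_univ p hD]
  refine Pr_mono (valid_const h0 h1) ?_
  rintro ω hω hn ⟨a, ha, b, hb, hc⟩
  rcases exit_set (fun e he => eIn_edge (hω he)) (hA ha) hc with h | ⟨x, y, hx, hy, hxy, hadj, h⟩
  · exact hn ⟨a, ha, b, hT b hb h.1, h.2⟩
  · exact hn ⟨a, ha, x, hS x hx y (mk_mem_eIn.1 (hω hxy)).2.1 hy hadj, h⟩

lemma miss_mono {p : ℝ} (h0 : 0 ≤ p) (h1 : p ≤ 1) {D D' A A' : Finset V} {T T' : Set V}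
    (hD : D ⊆ D') (hA : A ⊆ A') (hAD : A ⊆ D) (hT : ∀ b ∈ T, b ∈ D → b ∈ T') :
    miss G p D' A' T' ≤ miss G p D A T := by
  rw [Miss.miss_univ p hD]
  refine Pr_mono (valid_const h0 h1) ?_
  rintro ω - hn ⟨a, ha, b, hb, hc⟩
  exact hn ⟨a, hA ha, b, hT b hb (Miss.conn_mem inter_subset_right (hAD ha) hc),
    hc.mono inter_subset_left⟩

lemma miss_empty (p : ℝ) {D A : Finset V} {T : Set V} (hAD : A ⊆ D) (h : ∀ b ∈ T, b ∉ D) :
    miss G p D A T = 1 := by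
  have h2 : miss G p D A T = Pr (eIn G D) (fun _ => p) (fun _ => True) := by
    refine Pr_congr fun ω hω => ⟨fun _ => trivial, fun _ => ?_⟩
    rintro ⟨a, ha, b, hb, hc⟩
    exact h b hb (Miss.conn_mem hω (hAD ha) hc)
  rw [h2]
  simp [Pr]

lemma continuous_miss (D A : Finset V) (T : Set V) : Continuous fun p => miss G p D A T :=
  continuous_Ex_const _ _

lemma theta_eq (p : ℝ) (o : V) (n : ℕ) :
    theta G p o n = 1 - miss G p (ball G o n) {o} (sph G o n) := by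
  unfold miss theta
  rw [Pr_not, sub_sub_cancel]
  exact Pr_congr fun ω _ => by simp

end Vale.Agent.P151G
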