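import Vale.Agent.P151G.Miss

/-! Job MissB: symmetry, square root trick and splitting. -/

namespace Vale.Agent.P151G

open Finset Vale.Agent.P151

variable {V : Type*} [DecidableEq V] {G : SimpleGraph V} [G.LocallyFinite]

lemma miss_aut {p : ℝ} (h0 : 0 ≤ p) (h1 : p ≤ 1) (γ : G ≃g G) {D D' A A' : Finset V}
    {T T' : Set V} (hD : ∀ x ∈ D, γ x ∈ D') (hA : ∀ x ∈ A, γ x ∈ A') (hAD : A ⊆ D)
    (hT : ∀ b ∈ T, b ∈ D → γ b ∈ T') : miss G p D' A' T' ≤ miss G p D A T := by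
  have hv : Valid (fun _ : Sym2 V => p) := valid_const h0 h1
  obtain ⟨φ, hφ⟩ : ∃ φ : Sym2 V ↪ Sym2 V, ∀ a b, φ s(a, b) = s(γ a, γ b) :=
    ⟨⟨Sym2.map γ, Sym2.map.injective γ.injective⟩, fun _ _ => rfl⟩
  have hsub : (eIn G D).map φ ⊆ eIn G D' := by
    intro e he
    obtain ⟨e', he', rfl⟩ := mem_map.1 he
    induction e' using Sym2.ind with
    | _ a b =>
      obtain ⟨a1, a2, a3⟩ := mk_mem_eIn.1 he'
      rw [hφ]
      exact mk_mem_eIn.2 ⟨hD a a1, hD b a2, γ.map_rel_iff.2 a3⟩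
  have e1 : miss G p D' A' T' ≤ Pr ((eIn G D).map φ) (fun _ => p)
      (fun ω => ¬ ∃ a ∈ A', ∃ b ∈ T', Conn ω a b) := by
    have e2 : Pr ((eIn G D).map φ) (fun _ => p) (fun ω => ¬ ∃ a ∈ A', ∃ b ∈ T', Conn ω a b) =
        Pr (eIn G D') (fun _ => p)
          (fun ω => ¬ ∃ a ∈ A', ∃ b ∈ T', Conn (ω ∩ (eIn G D).map φ) a b) :=
      (Ex_universe hsub _).symm
    rw [e2]
    refine Pr_mono hv ?_
    rintro ω - hn ⟨a, ha, b, hb, hc⟩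
    exact hn ⟨a, ha, b, hb, hc.mono inter_subset_left⟩
  refine e1.trans ?_
  unfold miss Pr
  rw [Ex_map]
  refine Ex_mono hv fun ω hω => ind_mono ?_
  rintro hn ⟨a, ha, b, hb, hc⟩
  refine hn ⟨γ a, hA a ha, γ b, hT b hb (Miss.conn_mem hω (hAD ha) hc), ?_⟩
  refine Conn.map γ (fun x y hxy => ?_) hc
  rw [← hφ]
  exact mem_map_of_mem φ hxy

namespace MissB

lemma sph_le {p : ℝ} (h0 : 0 ≤ p) (h1 : p ≤ 1) (γ : G ≃g G) (o : V) (n : ℕ) :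
    miss G p (ball G (γ o) n) {γ o} (sph G (γ o) n) ≤ miss G p (ball G o n) {o} (sph G o n) := by
  refine miss_aut h0 h1 γ (fun x hx => ball_aut γ hx) (fun x hx => ?_) (fun x hx => ?_)
    (fun b hb _ => ?_)
  · rw [mem_singleton.1 hx]; exact mem_singleton_self _
  · rw [mem_singleton.1 hx]; exact mem_ball_self _ _
  · obtain ⟨a1, y, a2, a3⟩ := mem_sph.1 (mem_coe.1 hb)
    exact mem_coe.2 (mem_sph.2 ⟨ball_aut γ a1, γ y, fun h => a2 ((ball_aut_iff γ).1 h),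
      γ.map_rel_iff.2 a3⟩)

end MissB

lemma theta_aut {p : ℝ} (h0 : 0 ≤ p) (h1 : p ≤ 1) (γ : G ≃g G) (o : V) (n : ℕ) :
    theta G p (γ o) n = theta G p o n := by
  rw [theta_eq, theta_eq]
  have a1 := MissB.sph_le h0 h1 γ o n
  have a2 := MissB.sph_le h0 h1 γ.symm (γ o) n
  rw [RelIso.symm_apply_apply] at a2
  rw [le_antisymm a1 a2]

lemma miss_mul {p : ℝ} (h0 : 0 ≤ p) (h1 : p ≤ 1) (D A : Finset V) (T T' : Set V) :
    miss G p D A T * miss G p D A T' ≤ miss G p D A (T ∪ T') := by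
  have hv : Valid (fun _ : Sym2 V => p) := valid_const h0 h1
  have anti : ∀ S : Set V, Antitone fun ω : Finset (Sym2 V) =>
      ind (¬ ∃ a ∈ A, ∃ b ∈ S, Conn ω a b) := fun S ω ω' h =>
    ind_mono fun hn ⟨a, ha, b, hb, hc⟩ => hn ⟨a, ha, b, hb, hc.mono h⟩
  refine (harris_anti (U := eIn G D) hv (anti T) (anti T')).trans ?_
  refine Ex_mono hv fun ω _ => ?_
  rw [← ind_and]
  refine ind_mono ?_
  rintro ⟨a1, a2⟩ ⟨a, ha, b, hb | hb, hc⟩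
  · exact a1 ⟨a, ha, b, hb, hc⟩
  · exact a2 ⟨a, ha, b, hb, hc⟩

lemma miss_or {p : ℝ} (h0 : 0 ≤ p) (h1 : p ≤ 1) {D A : Finset V} {T T' : Set V} {c : ℝ}
    (hc : 0 < c) (h : miss G p D A (T ∪ T') ≤ c ^ 2) :
    miss G p D A T ≤ c ∨ miss G p D A T' ≤ c := by
  by_contra hn
  push Not at hn
  have a1 := miss_mul (G := G) h0 h1 D A T T'
  have a2 := mul_lt_mul'' hn.1 hn.2 hc.le hc.le
  nlinarith

lemma miss_split {p : ℝ} (h0 : 0 ≤ p) (h1 : p ≤ 1) {D A : Finset V} {T : Set V} {c : ℝ}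
    (hc0 : 0 < c) (hc1 : c < 1) (hAD : A ⊆ D) (f : V → ℤ) {lo hi : ℤ} (hlh : lo ≤ hi)
    (hf : ∀ b ∈ D, lo ≤ f b ∧ f b ≤ hi) (h : miss G p D A T ≤ c ^ 2) :
    ∃ t, lo ≤ t ∧ t ≤ hi ∧ miss G p D A {b | b ∈ T ∧ f b ≤ t} ≤ c ∧
      miss G p D A {b | b ∈ T ∧ t ≤ f b} ≤ c := by
  have hhi : miss G p D A {b | b ∈ T ∧ f b ≤ hi} ≤ c := by
    have := miss_mono (G := G) h0 h1 (Subset.refl D) (Subset.refl A) hAD (T := T)
      (T' := {b | b ∈ T ∧ f b ≤ hi}) (fun b hb hbD => ⟨hb, (hf b hbD).2⟩)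
    nlinarith
  obtain ⟨t, ⟨t1, t2⟩, tmin⟩ := Int.exists_least_of_bdd
    (P := fun t => lo ≤ t ∧ miss G p D A {b | b ∈ T ∧ f b ≤ t} ≤ c) ⟨lo, fun z hz => hz.1⟩
    ⟨hi, hlh, hhi⟩
  refine ⟨t, t1, tmin hi ⟨hlh, hhi⟩, t2, ?_⟩
  have hlt : ¬ miss G p D A {b | b ∈ T ∧ f b ≤ t - 1} ≤ c := by
    intro hle
    rcases t1.eq_or_lt with e | e
    · rw [miss_empty p hAD (fun b hb hbD => by
        have a1 := (hf b hbD).1
        have a2 : f b ≤ t - 1 := hb.2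
        omega)] at hle
      linarith
    · have := tmin (t - 1) ⟨by omega, hle⟩
      omega
  have hu : miss G p D A ({b | b ∈ T ∧ f b ≤ t - 1} ∪ {b | b ∈ T ∧ t ≤ f b}) ≤ c ^ 2 := by
    refine le_trans (miss_mono h0 h1 (Subset.refl D) (Subset.refl A) hAD fun b hb _ => ?_) h
    by_cases e : t ≤ f b
    · exact Or.inr ⟨hb, e⟩
    · exact Or.inl ⟨hb, by omega⟩
  exact (miss_or h0 h1 hc0 hu).resolve_left hlt

end Vale.Agent.P151G
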