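import Vale.Agent.P151G.MissB
import Vale.Agent.P151.Estimate

/-! Job Seed: large balls are joined far away. -/

namespace Vale.Agent.P151G

open Finset Vale.Agent.P151

variable {V : Type*} [DecidableEq V] {G : SimpleGraph V} [G.LocallyFinite]

lemma Geo.ray {o : V} (g : Geo G o) (k : ℕ) : ∃ u ∈ ball G o (k * g.ρ), g.P u = k := by
  induction k with
  | zero => exact ⟨o, mem_ball_self _ _, by simp [g.P0]⟩
  | succ k ih =>
    obtain ⟨u, hu, h⟩ := ih
    obtain ⟨v, hv, h1, -⟩ := g.step u 1 0 (by simp) (by simp)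
    refine ⟨v, ?_, by rw [h1, h]; push_cast; ring⟩
    rw [add_mul, one_mul]; exact ball_trans hu hv

lemma Geo.spread {o : V} (g : Geo G o) (N r : ℕ) : ∃ (x : ℕ → G ≃g G) (D : ℕ),
    (∀ k < N, x k o ∈ ball G o D) ∧
    ∀ k k', k ≠ k' → ∀ a, a ∈ ball G (x k o) r → a ∉ ball G (x k' o) r := by
  obtain ⟨L, hL⟩ : ∃ L : ℕ, L = 2 * g.κ * (r + g.ρ) + 1 := ⟨_, rfl⟩
  choose u hu hP using fun k => g.ray (k * L)
  choose x hx _ using fun k => g.net (u k)
  refine ⟨x, N * L * g.ρ + g.ρ, fun k hk => ?_, fun k k' hne a ha ha' => ?_⟩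
  · refine ball_mono o ?_ (ball_trans (hu k) (ball_symm (hx k)))
    have : k * L * g.ρ ≤ N * L * g.ρ :=
      Nat.mul_le_mul_right _ (Nat.mul_le_mul_right _ hk.le)
    omega
  · have h1 := abs_le.1 (lip_ball_int (fun u v h => (g.lip u v h).1)
      (ball_trans (ball_symm (hx k)) ha))
    have h2 := abs_le.1 (lip_ball_int (fun u v h => (g.lip u v h).1)
      (ball_trans (ball_symm (hx k')) ha'))
    rw [hP] at h1 h2
    have hL' : (L : ℤ) = 2 * (((g.ρ + r : ℕ) : ℤ) * g.κ) + 1 := by rw [hL]; push_cast; ring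
    have hL0 : (0 : ℤ) ≤ L := by positivity
    simp only [Nat.cast_mul] at h1 h2
    rcases lt_or_gt_of_ne hne with hlt | hlt
    · have : (k : ℤ) + 1 ≤ k' := by exact_mod_cast hlt
      have := mul_le_mul_of_nonneg_right this hL0
      linarith [h1.1, h1.2, h2.1, h2.2]
    · have : (k' : ℤ) + 1 ≤ k := by exact_mod_cast hlt
      have := mul_le_mul_of_nonneg_right this hL0
      linarith [h1.1, h1.2, h2.1, h2.2]

theorem seed_estimate {o : V} (g : Geo G o) {p : ℝ} (hp0 : 0 < p) (hp1 : p ≤ 1) (h : Perc G p o)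
    {δ : ℝ} (hδ : 0 < δ) :
    ∃ m : ℕ, ∀ n : ℕ, m ≤ n → miss G p (ball G o n) (ball G o m) (sph G o n) ≤ δ := by
  classical
  obtain ⟨c, hc, hθ⟩ := h
  have hv : Valid (fun _ : Sym2 V => p) := valid_const hp0.le hp1
  obtain ⟨N, hN⟩ := exists_pow_lt_of_lt_one (half_pos hδ) (show 1 - c < 1 by linarith)
  have hbdd : BddBelow (Set.range (theta G p o)) := ⟨c, by rintro _ ⟨n, rfl⟩; exact hθ n⟩
  set th := ⨅ n, theta G p o n with hth
  have hth_le : ∀ n, th ≤ theta G p o n := fun n => ciInf_le hbdd n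
  obtain ⟨r, hr⟩ : ∃ r, theta G p o r < th + δ / (2 * (N + 1)) :=
    exists_lt_of_ciInf_lt (lt_add_of_pos_right _ (by positivity))
  obtain ⟨x, D, hxD, hxd⟩ := g.spread N r
  refine ⟨D + r + 1, fun n hn => ?_⟩
  set U := eIn G (ball G o n) with hU
  set S : ℕ → Finset (Sym2 V) := fun k => eIn G (ball G (x k o) r) with hS
  set A : ℕ → Finset (Sym2 V) → Prop :=
    fun k ω => ∃ b ∈ sph G (x k o) r, Conn ω (x k o) b with hA
  set H : ℕ → Finset (Sym2 V) → Prop := fun k ω => ∃ b ∈ sph G o n, Conn ω (x k o) b with hH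
  have hSU : ∀ k < N, S k ⊆ U := fun k hk =>
    eIn_mono (ball_subset_ball (hxD k hk) (by omega))
  have hGθ : ∀ k < N, Pr U (fun _ => p) (fun ω => A k (ω ∩ S k)) = theta G p o r := by
    intro k hk
    rw [Pr_universe (hSU k hk) (A k)]
    exact theta_aut hp0.le hp1 (x k) o r
  have hHG : ∀ k < N, ∀ ω ⊆ U, H k ω → A k (ω ∩ S k) := by
    rintro k hk ω hω ⟨b, hb, hc⟩
    exact exit_ball (fun e he => eIn_edge (hω he)) (mem_ball_self _ _)
      (fun h => notMem_ball_of_sph hb (show D + r < n by omega) (ball_trans (hxD k hk) h)) hc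
  have hHθ : ∀ k < N, th ≤ Pr U (fun _ => p) (H k) := by
    intro k hk
    refine (hth_le (D + n + 1)).trans ?_
    rw [← theta_aut hp0.le hp1 (x k) o (D + n + 1)]
    have hsub : U ⊆ eIn G (ball G (x k o) (D + n + 1)) :=
      eIn_mono (ball_subset_ball (ball_symm (hxD k hk)) (by omega))
    rw [← Pr_universe hsub (H k)]
    refine Pr_mono hv ?_
    rintro ω hω ⟨b, hb, hc⟩
    exact exit_ball (fun e he => eIn_edge (hω he)) (ball_mono o (by omega) (hxD k hk))
      (fun h => notMem_ball_of_sph hb (show D + n < D + n + 1 by omega)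
        (ball_trans (ball_symm (hxD k hk)) h)) hc
  have hdisj : ((range N : Finset ℕ) : Set ℕ).PairwiseDisjoint S := by
    intro k _ k' _ hne
    rw [Function.onFun, disjoint_left]
    intro e he he'
    induction e using Sym2.ind with
    | _ a b => exact hxd k k' hne a (mk_mem_eIn.1 he).1 (mk_mem_eIn.1 he').1
  have hnoG : Pr U (fun _ => p) (fun ω => ∀ k ∈ range N, ¬ A k (ω ∩ S k)) ≤ (1 - c) ^ N := by
    unfold Pr
    simp only [ind_forall]
    rw [Ex_prod_indep (range N) S hdisj (fun k ω => ind (¬ A k ω))]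
    calc ∏ k ∈ range N, Ex U (fun _ => p) (fun ω => ind (¬ A k (ω ∩ S k)))
        ≤ ∏ _k ∈ range N, (1 - c) := by
          refine prod_le_prod (fun k _ => Ex_nonneg hv fun _ _ => ind_nonneg _) fun k hk => ?_
          have := Pr_not (U := U) (w := fun _ => p) (fun ω => A k (ω ∩ S k))
          rw [hGθ k (mem_range.1 hk)] at this
          unfold Pr at this
          rw [this]; linarith [hθ r]
      _ = _ := by simp
  have hGH : ∀ k ∈ range N, Pr U (fun _ => p) (fun ω => A k (ω ∩ S k) ∧ ¬ H k ω) ≤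
      δ / (2 * (N + 1)) := by
    intro k hk
    have hk' := mem_range.1 hk
    have h1 := Pr_and_add_and_not (U := U) (w := fun _ => p) (fun ω => A k (ω ∩ S k)) (H k)
    have h2 : Pr U (fun _ => p) (H k) ≤ Pr U (fun _ => p) (fun ω => A k (ω ∩ S k) ∧ H k ω) :=
      Pr_mono hv fun ω hω h => ⟨hHG k hk' ω hω h, h⟩
    rw [hGθ k hk'] at h1
    linarith [hHθ k hk']
  have hmain : miss G p (ball G o n) (ball G o (D + r + 1)) (sph G o n) ≤
      Pr U (fun _ => p) (fun ω => ∀ k ∈ range N, ¬ A k (ω ∩ S k)) +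
      Pr U (fun _ => p) (fun ω => ∃ k ∈ range N, A k (ω ∩ S k) ∧ ¬ H k ω) := by
    refine Pr_le_add hv fun ω _ hno => ?_
    by_cases hall : ∀ k ∈ range N, ¬ A k (ω ∩ S k)
    · exact Or.inl hall
    · push Not at hall
      obtain ⟨k, hk, hg⟩ := hall
      refine Or.inr ⟨k, hk, hg, fun ⟨b, hb, hh⟩ => hno ⟨x k o, ?_, b, mem_coe.2 hb, hh⟩⟩
      exact ball_mono o (by omega) (hxD k (mem_range.1 hk))
  have h3 := Pr_exists_le (U := U) hv (range N) (fun k ω => A k (ω ∩ S k) ∧ ¬ H k ω)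
  have h4 : ∑ k ∈ range N, Pr U (fun _ => p) (fun ω => A k (ω ∩ S k) ∧ ¬ H k ω) ≤
      N * (δ / (2 * (N + 1))) := by
    calc _ ≤ ∑ _k ∈ range N, δ / (2 * (N + 1)) := sum_le_sum hGH
      _ = _ := by simp
  have h5 : (N : ℝ) * (δ / (2 * (N + 1))) ≤ δ / 2 := by
    rw [← mul_div_assoc, div_le_div_iff₀ (by positivity) (by positivity)]
    nlinarith
  linarith

end Vale.Agent.P151G
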